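import Vale.Agent.P256.Iso.NodeCover

/-! Hyperbolicity cones with isolated singular rays are spectrahedral shadows. -/

namespace Vale.Agent.P256.Iso

open MvPolynomial Topology Filter

variable {n d : ℕ} {p : MvPolynomial (Fin n) ℝ} {e : Fin n → ℝ}

/-- The endpoint of a bounded chord of the cone lies on the boundary. -/
lemma exists_chord_end (hp : IsHyperbolicPoly p e) (hd : p.IsHomogeneous d) {x w : Fin n → ℝ}
    (hx : x ∈ hyperbolicityCone p e) (hw : w ∉ hyperbolicityCone p e) :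
    ∃ b : ℝ, 0 ≤ b ∧ x + b • w ∈ hyperbolicityCone p e ∧ eval (x + b • w) p = 0 := by
  set I := {t : ℝ | 0 ≤ t ∧ x + t • w ∈ hyperbolicityCone p e} with hI
  have hcl : IsClosed I :=
    (isClosed_le continuous_const continuous_id).inter ((cone_closed hp hd).preimage (by fun_prop))
  have hne : I.Nonempty := ⟨0, le_rfl, by simpa using hx⟩
  have hbd : BddAbove I := by
    have hc : Tendsto (fun t : ℝ => t⁻¹ • x + w) atTop (𝓝 w) := by
      simpa using ((tendsto_inv_atTop_zero (𝕜 := ℝ)).smul_const x).add_const w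
    obtain ⟨T, hT⟩ := eventually_atTop.mp
      (hc.eventually ((cone_closed hp hd).isOpen_compl.mem_nhds hw))
    refine ⟨max T 1, fun t ht => ?_⟩
    by_contra hlt
    push Not at hlt
    have ht0 : 0 < t := lt_of_lt_of_le one_pos ((le_max_right _ _).trans hlt.le)
    refine hT t ((le_max_left _ _).trans hlt.le) ?_
    have := cone_smul hd (inv_pos.mpr ht0) ht.2
    rwa [smul_add, smul_smul, inv_mul_cancel₀ ht0.ne', one_smul] at this
  obtain ⟨hb0, hbK⟩ := hcl.csSup_mem hne hbd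
  refine ⟨sSup I, hb0, hbK, ?_⟩
  by_contra h0
  have hc : Tendsto (fun t : ℝ => x + t • w) (𝓝 (sSup I)) (𝓝 (x + sSup I • w)) :=
    (show Continuous fun t : ℝ => x + t • w by fun_prop).tendsto _
  obtain ⟨ε, hε, hball⟩ := Metric.eventually_nhds_iff.mp
    (hc.eventually (cone_eventually hp hd hbK h0))
  have hmem : sSup I + ε / 2 ∈ I := ⟨by linarith, hball (by
    rw [Real.dist_eq, add_sub_cancel_left, abs_of_pos (half_pos hε)]; linarith)⟩
  linarith [le_csSup hbd hmem]

/-- The cone is the sum of two copies of any conic set containing its boundary and `e`. -/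
lemma exists_decomp (hp : IsHyperbolicPoly p e) (hd : p.IsHomogeneous d)
    (hpt : ∀ z ∈ hyperbolicityCone p e, -z ∈ hyperbolicityCone p e → z = 0)
    {S : Set (Fin n → ℝ)} (h0 : 0 ∈ S) (hc : ∀ c : ℝ, 0 ≤ c → ∀ y ∈ S, c • y ∈ S)
    (hbd : ∀ y ∈ hyperbolicityCone p e, eval y p = 0 → y ∈ S) (he : e ∈ S)
    {x : Fin n → ℝ} (hx : x ∈ hyperbolicityCone p e) : ∃ y ∈ S, ∃ z ∈ S, x = y + z := by
  by_cases hw : ∃ w, w ∉ hyperbolicityCone p e ∧ -w ∉ hyperbolicityCone p e
  · obtain ⟨w, hw1, hw2⟩ := hw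
    obtain ⟨b, hb, hbK, hb0⟩ := exists_chord_end hp hd hx hw1
    obtain ⟨a, ha, haK, ha0⟩ := exists_chord_end hp hd hx hw2
    rcases (add_nonneg ha hb).lt_or_eq with hab | hab
    · refine ⟨(a / (a + b)) • (x + b • w), hc _ (div_nonneg ha hab.le) _ (hbd _ hbK hb0),
        (b / (a + b)) • (x + a • -w), hc _ (div_nonneg hb hab.le) _ (hbd _ haK ha0), ?_⟩
      ext i
      simp
      field_simp
      ring
    · have hb' : b = 0 := by linarith
      rw [hb', zero_smul, add_zero] at hbK hb0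
      exact ⟨x, hbd x hbK hb0, 0, h0, (add_zero x).symm⟩
  push Not at hw
  refine ⟨x, ?_, 0, h0, (add_zero x).symm⟩
  by_contra hxS
  have hx0 : x ≠ 0 := fun h => hxS (h ▸ h0)
  have hline : ∀ t : ℝ, x + t • e ≠ 0 := by
    intro t h
    have hxe : x = (-t) • e := by rw [neg_smul]; exact eq_neg_of_add_eq_zero_left h
    rcases lt_or_ge 0 t with ht | ht
    · refine hx0 (hpt x hx ?_)
      rw [hxe, neg_smul, neg_neg]
      exact cone_smul hd ht (cone_base hp hd)
    · exact hxS (hxe ▸ hc (-t) (neg_nonneg.mpr ht) e he)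
  set P := {t : ℝ | x + t • e ∈ hyperbolicityCone p e} with hP
  set M := {t : ℝ | -(x + t • e) ∈ hyperbolicityCone p e} with hM
  have hPc : IsClosed P := (cone_closed hp hd).preimage (by fun_prop)
  have hMc : IsClosed M := (cone_closed hp hd).preimage (by fun_prop)
  have hPM : P = Mᶜ := by
    ext t
    refine ⟨fun h1 h2 => hline t (hpt _ h1 h2), fun h => ?_⟩
    by_contra h'
    exact h (hw _ h')
  have hclo : IsClopen P := ⟨hPc, hPM ▸ hMc.isOpen_compl⟩
  have huniv := hclo.eq_univ ⟨0, by simpa [hP] using hx⟩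
  obtain ⟨T, hT0, hT⟩ := exists_shift_mem hp hd (-x)
  have h1 : x + (-T) • e ∈ hyperbolicityCone p e := by
    have : -T ∈ P := by rw [huniv]; exact Set.mem_univ _
    exact this
  refine hline (-T) (hpt _ h1 ?_)
  rw [neg_add, neg_smul, neg_neg]
  exact hT T le_rfl

theorem cone_shadow (hp : IsHyperbolicPoly p e)
    (hpt : ∀ z ∈ hyperbolicityCone p e, -z ∈ hyperbolicityCone p e → z = 0)
    (hgood : ∀ z ∈ hyperbolicityCone p e, z ≠ 0 → eval z p = 0 →
      (∃ i, eval z (pderiv i p) ≠ 0) ∨ ∃ m, NodeAt p e z m) :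
    IsSpectrahedralShadow (hyperbolicityCone p e) := by
  obtain ⟨d, hd⟩ := hp.1
  set B := Metric.sphere (0 : Fin n → ℝ) 1 ∩
    (hyperbolicityCone p e ∩ {y | eval y p = 0}) with hBdef
  have hB : IsCompact B := (isCompact_sphere _ _).inter_right
    ((cone_closed hp hd).inter (isClosed_eq (continuous_eval p) continuous_const))
  have hcov : Coverable p e B := by
    refine hB.induction_on (p := Coverable p e) (coverable_empty hp hd)
      (fun _ _ h h' => h'.mono h) (fun _ _ h h' => coverable_union hp hd h h') ?_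
    rintro x ⟨hx1, hx, hx0⟩
    have hxne : x ≠ 0 := Metric.ne_of_mem_sphere hx1 one_ne_zero
    have hU : ∃ U ∈ 𝓝 x, Coverable p e {y | y ∈ U ∧ y ∈ hyperbolicityCone p e ∧ eval y p = 0} := by
      rcases hgood x hx hxne hx0 with hs | ⟨m, hm⟩
      · exact smooth_cover hp hd hpt hgood hx hxne hx0 hs
      · exact node_cover hp hd hx hxne hm
    obtain ⟨U, hU, h⟩ := hU
    exact ⟨U ∩ B, inter_mem (mem_nhdsWithin_of_mem_nhds hU) self_mem_nhdsWithin,
      h.mono fun y hy => ⟨hy.1, hy.2.2⟩⟩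
  obtain ⟨S, hS, hSK, h0, hc, hsub⟩ :=
    coverable_union hp hd hcov (coverable_ray hp hd (cone_base hp hd))
  have he : e ∈ S := hsub (Or.inr ⟨1, zero_le_one, (one_smul ℝ e).symm⟩)
  have hbd : ∀ y ∈ hyperbolicityCone p e, eval y p = 0 → y ∈ S := by
    intro y hy hy0
    by_cases h : y = 0
    · exact h ▸ h0
    have hn : 0 < ‖y‖ := norm_pos_iff.mpr h
    have hmem : ‖y‖⁻¹ • y ∈ S := by
      refine hsub (Or.inl ⟨?_, cone_smul hd (inv_pos.mpr hn) hy, ?_⟩)
      · simp [norm_smul, inv_mul_cancel₀ hn.ne']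
      · show eval _ p = 0
        rw [eval_smul_hom hd, hy0, mul_zero]
    have := hc ‖y‖ hn.le _ hmem
    rwa [smul_smul, mul_inv_cancel₀ hn.ne', one_smul] at this
  have hK : hyperbolicityCone p e = {x | ∃ y ∈ S, ∃ z ∈ S, x = y + z} := by
    ext x
    refine ⟨fun hx => exists_decomp hp hd hpt h0 hc hbd he hx, ?_⟩
    rintro ⟨y, hy, z, hz, rfl⟩
    exact cone_add' hp hd (hSK hy) (hSK hz)
  rw [hK]
  exact shadow_add hS hS

end Vale.Agent.P256.Iso
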