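import Vale.Agent.P256.Iso.Main

/-! Products of linear pullbacks: the cone is the intersection of the pulled back cones. -/

namespace Vale.Agent.P256.Iso

open MvPolynomial Matrix

variable {n m : ℕ}

/-- The polynomial `x ↦ q (L x)`. -/
noncomputable def linPull (L : (Fin n → ℝ) →ₗ[ℝ] (Fin m → ℝ)) (q : MvPolynomial (Fin m) ℝ) :
    MvPolynomial (Fin n) ℝ :=
  aeval (fun l => ∑ i, C (L (Pi.single i 1) l) * X i) q

lemma linear_apply (L : (Fin n → ℝ) →ₗ[ℝ] (Fin m → ℝ)) (x : Fin n → ℝ) (l : Fin m) :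
    ∑ i, L (Pi.single i 1) l * x i = L x l := by
  conv_rhs => rw [pi_eq_sum_univ' x, map_sum]
  simp [map_smul, Finset.sum_apply, mul_comm]

lemma eval_linPull (L : (Fin n → ℝ) →ₗ[ℝ] (Fin m → ℝ)) (q : MvPolynomial (Fin m) ℝ)
    (x : Fin n → ℝ) : eval x (linPull L q) = eval (L x) q := by
  unfold linPull
  induction q using MvPolynomial.induction_on with
  | C r => simp
  | add a b ha hb => rw [map_add, map_add, map_add, ha, hb]
  | mul_X a l ha =>
    rw [map_mul, map_mul, map_mul, aeval_X, ha, eval_X]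
    simp [linear_apply]

lemma aeval_linPull (L : (Fin n → ℝ) →ₗ[ℝ] (Fin m → ℝ)) (q : MvPolynomial (Fin m) ℝ)
    (e x : Fin n → ℝ) (z : ℂ) :
    aeval (fun i => z * (e i : ℂ) - (x i : ℂ)) (linPull L q) =
      aeval (fun l => z * (L e l : ℂ) - (L x l : ℂ)) q := by
  unfold linPull
  induction q using MvPolynomial.induction_on with
  | C r => simp
  | add a b ha hb => rw [map_add, map_add, map_add, ha, hb]
  | mul_X a l ha =>
    rw [map_mul, map_mul, map_mul, aeval_X, ha, aeval_X]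
    congr 1
    rw [← linear_apply L e l, ← linear_apply L x l]
    simp only [map_sum, map_mul, aeval_C, aeval_X, Complex.coe_algebraMap, Complex.ofReal_sum,
      Complex.ofReal_mul, Finset.mul_sum, ← Finset.sum_sub_distrib]
    exact Finset.sum_congr rfl fun i _ => by ring

lemma linPull_hom {d : ℕ} (L : (Fin n → ℝ) →ₗ[ℝ] (Fin m → ℝ)) {q : MvPolynomial (Fin m) ℝ}
    (hq : q.IsHomogeneous d) : (linPull L q).IsHomogeneous d := by
  have h := hq.aeval (fun l => ∑ i, C (L (Pi.single i 1) l) * X i) (n := 1) fun l =>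
    IsHomogeneous.sum _ _ _ fun i _ => isHomogeneous_C_mul_X _ i
  rwa [one_mul] at h

lemma shadow_preimage (L : (Fin n → ℝ) →ₗ[ℝ] (Fin m → ℝ)) {S : Set (Fin m → ℝ)}
    (hS : IsSpectrahedralShadow S) : IsSpectrahedralShadow {x | L x ∈ S} := by
  obtain ⟨a, k, A₀, A, C, hA₀, hA, hC, rfl⟩ := hS
  refine shadow_of_affine (ι := Fin a) A₀ hA₀
    { toFun := fun q => ∑ i, L q.1 i • A i + ∑ j, q.2 j • C j, map_add' := ?_, map_smul' := ?_ } ?_ ?_
  · intro q q'
    simp only [Prod.fst_add, Prod.snd_add, map_add, Pi.add_apply, add_smul, Finset.sum_add_distrib]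
    abel
  · intro c q
    simp only [Prod.smul_fst, Prod.smul_snd, map_smul, Pi.smul_apply, smul_eq_mul, RingHom.id_apply,
      smul_add, Finset.smul_sum, smul_smul]
  · intro q
    ext r s
    simp [Matrix.sum_apply, fun i => (hA i).apply r s, fun j => (hC j).apply r s]
  intro x
  simp only [Set.mem_ofPred_eq, LinearMap.coe_mk, AddHom.coe_mk, ← add_assoc]

lemma shadow_inter {S T : Set (Fin n → ℝ)} (hS : IsSpectrahedralShadow S)
    (hT : IsSpectrahedralShadow T) : IsSpectrahedralShadow (S ∩ T) := by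
  obtain ⟨a, k, A₀, A, C, hA₀, hA, hC, rfl⟩ := hS
  obtain ⟨a', k', B₀, B, C', hB₀, hB, hC', rfl⟩ := hT
  refine shadow_of_affine (ι := Fin a ⊕ Fin a') (fromBlocks A₀ 0 0 B₀)
    (IsSymm.fromBlocks hA₀ (by simp) hB₀)
    { toFun := fun q => fromBlocks (∑ i, q.1 i • A i + ∑ j, q.2 (Sum.inl j) • C j) 0 0
        (∑ i, q.1 i • B i + ∑ j, q.2 (Sum.inr j) • C' j), map_add' := ?_, map_smul' := ?_ } ?_ ?_
  · intro q q'
    simp only [fromBlocks_add, Prod.fst_add, Prod.snd_add, Pi.add_apply, add_smul,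
      Finset.sum_add_distrib, add_zero]
    congr 1 <;> abel
  · intro c q
    simp only [fromBlocks_smul, Prod.smul_fst, Prod.smul_snd, Pi.smul_apply, smul_eq_mul,
      RingHom.id_apply, smul_zero, smul_add, Finset.smul_sum, smul_smul]
  · intro q
    simp only [LinearMap.coe_mk, AddHom.coe_mk]
    refine IsSymm.fromBlocks ?_ (by simp) ?_
    · ext r s; simp [Matrix.sum_apply, fun i => (hA i).apply r s, fun j => (hC j).apply r s]
    · ext r s; simp [Matrix.sum_apply, fun i => (hB i).apply r s, fun j => (hC' j).apply r s]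
  intro x
  simp only [LinearMap.coe_mk, AddHom.coe_mk, fromBlocks_add, add_zero, posSemidef_fromBlocks_iff,
    Set.mem_inter_iff, Set.mem_ofPred_eq, ← add_assoc]
  constructor
  · rintro ⟨⟨u, hu⟩, u', hu'⟩
    exact ⟨Sum.elim u u', by simpa using hu, by simpa using hu'⟩
  · rintro ⟨w, h1, h2⟩
    exact ⟨⟨_, h1⟩, _, h2⟩

lemma shadow_univ : IsSpectrahedralShadow (Set.univ : Set (Fin n → ℝ)) :=
  ⟨0, 0, 0, fun _ => 0, fun _ => 0, by simp, fun _ => by simp, fun _ => by simp, by
    symm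
    refine Set.eq_univ_of_forall fun x => ⟨0, ?_⟩
    simpa using PosSemidef.zero⟩

lemma shadow_forall : ∀ (r : ℕ) (S : Fin r → Set (Fin n → ℝ)),
    (∀ j, IsSpectrahedralShadow (S j)) → IsSpectrahedralShadow {x | ∀ j, x ∈ S j}
  | 0, S, _ => by
      have h : {x : Fin n → ℝ | ∀ j, x ∈ S j} = Set.univ :=
        Set.eq_univ_of_forall fun x j => j.elim0
      rw [h]; exact shadow_univ
  | r + 1, S, h => by
      have h' : {x | ∀ j, x ∈ S j} = S 0 ∩ {x | ∀ j : Fin r, x ∈ S j.succ} := by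
        ext x; exact Fin.forall_fin_succ
      rw [h']
      exact shadow_inter (h 0) (shadow_forall r _ fun j => h j.succ)

theorem product_shadow {r : ℕ} {dim : Fin r → ℕ} (e : Fin n → ℝ)
    (L : ∀ j, (Fin n → ℝ) →ₗ[ℝ] (Fin (dim j) → ℝ)) (q : ∀ j, MvPolynomial (Fin (dim j)) ℝ)
    (hq : ∀ j, IsHyperbolicPoly (q j) (L j e))
    (hS : ∀ j, IsSpectrahedralShadow (hyperbolicityCone (q j) (L j e))) :
    IsHyperbolicPoly (∏ j, linPull (L j) (q j)) e ∧
      IsSpectrahedralShadow (hyperbolicityCone (∏ j, linPull (L j) (q j)) e) := by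
  choose d hd using fun j => (hq j).1
  refine ⟨⟨⟨∑ j, d j, IsHomogeneous.prod _ _ _ fun j _ => linPull_hom (L j) (hd j)⟩, ?_, ?_⟩, ?_⟩
  · rw [map_prod]
    exact Finset.prod_pos fun j _ => by rw [eval_linPull]; exact (hq j).2.1
  · intro x z hz
    rw [map_prod, Finset.prod_eq_zero_iff] at hz
    obtain ⟨j, -, hj⟩ := hz
    rw [aeval_linPull] at hj
    exact (hq j).2.2 (L j x) z hj
  · have h : hyperbolicityCone (∏ j, linPull (L j) (q j)) e =
        {x | ∀ j, x ∈ {x | L j x ∈ hyperbolicityCone (q j) (L j e)}} := by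
      ext x
      simp only [hyperbolicityCone, Set.mem_ofPred_eq, map_prod, eval_linPull,
        Finset.prod_eq_zero_iff, Finset.mem_univ, true_and, map_sub, map_smul]
      exact ⟨fun h j t ht => h t ⟨j, ht⟩, fun h t ⟨j, ht⟩ => h j t ht⟩
    rw [h]
    exact shadow_forall r _ fun j => shadow_preimage (L j) (hS j)

end Vale.Agent.P256.Iso
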