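import Vale.Agent.P256.Iso.RR
import Vale.Agent.P256.Compose

/-! Convexity of hyperbolicity cones, control of coefficients along lines through the cone, and
the expansion of a polynomial around a point. -/

namespace Vale.Agent.P256.Iso

open Polynomial Topology Filter

variable {n d : ℕ} {p : MvPolynomial (Fin n) ℝ} {e : Fin n → ℝ}

lemma eval_neg_hom (hd : p.IsHomogeneous d) (w : Fin n → ℝ) :
    MvPolynomial.eval (-w) p = (-1) ^ d * MvPolynomial.eval w p := by
  rw [← eval_smul_hom hd, neg_one_smul]

lemma mem_of_shift_ne (hd : p.IsHomogeneous d) {y : Fin n → ℝ}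
    (h : ∀ s : ℝ, 0 < s → MvPolynomial.eval (y + s • e) p ≠ 0) : y ∈ hyperbolicityCone p e := by
  intro t ht
  by_contra hneg
  refine h (-t) (by linarith [not_le.mp hneg]) ?_
  have h1 : y + (-t) • e = -(t • e - y) := by rw [neg_smul]; abel
  rw [h1, eval_neg_hom hd, ht, mul_zero]

lemma eval_pos_of_strict (hp : IsHyperbolicPoly p e) (hd : p.IsHomogeneous d) {y : Fin n → ℝ}
    (hy : y ∈ hyperbolicityCone p e) {s : ℝ} (hs : 0 < s) :
    0 < MvPolynomial.eval (y + s • e) p := by
  let g : ℝ → ℝ := fun r => MvPolynomial.eval (r • y + (r * s + (1 - r)) • e) p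
  have hg : Continuous g := (MvPolynomial.continuous_eval p).comp (by fun_prop)
  have hne : ∀ r ∈ Set.Icc (0 : ℝ) 1, g r ≠ 0 := by
    intro r hr
    have hc : 0 < r * s + (1 - r) := by
      rcases hr.2.lt_or_eq with h | h
      · nlinarith [mul_nonneg hr.1 hs.le]
      · subst h; linarith
    rcases hr.1.lt_or_eq with h | h
    · exact eval_ne_zero_of_strict hd (cone_smul hd h hy) hc
    · subst h
      simpa [g] using hp.2.1.ne'
  have h0 : 0 < g 0 := by simpa [g] using hp.2.1
  have h1 : g 1 = MvPolynomial.eval (y + s • e) p := by simp [g]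
  rw [← h1]
  by_contra hle
  push Not at hle
  obtain ⟨r, hr, hr0⟩ := intermediate_value_Icc' zero_le_one hg.continuousOn ⟨hle, h0.le⟩
  exact hne r hr hr0

lemma eval_nonneg_of_mem (hp : IsHyperbolicPoly p e) (hd : p.IsHomogeneous d) {y : Fin n → ℝ}
    (hy : y ∈ hyperbolicityCone p e) : 0 ≤ MvPolynomial.eval y p := by
  have hc : Continuous fun s : ℝ => MvPolynomial.eval (y + s • e) p :=
    (MvPolynomial.continuous_eval p).comp (by fun_prop)
  have : Tendsto (fun s : ℝ => MvPolynomial.eval (y + s • e) p) (𝓝[>] 0)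
      (𝓝 (MvPolynomial.eval y p)) := by
    simpa using (hc.tendsto 0).mono_left nhdsWithin_le_nhds
  exact ge_of_tendsto this (eventually_nhdsWithin_of_forall fun s hs =>
    (eval_pos_of_strict hp hd hy hs).le)

lemma hyperbolic_shift (hp : IsHyperbolicPoly p e) (hd : p.IsHomogeneous d) {y : Fin n → ℝ}
    (hy : y ∈ hyperbolicityCone p e) {s : ℝ} (hs : 0 < s) :
    IsHyperbolicPoly p (y + s • e) := by
  refine ⟨⟨d, hd⟩, eval_pos_of_strict hp hd hy hs, fun x z hz => ?_⟩
  by_contra him
  rcases lt_or_gt_of_ne him with h | h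
  · refine tube_ne_zero hp hd (cone_smul hd (c := -z.im) (by linarith) hy) (x - z.re • (y + s • e))
      (mul_pos (neg_pos.mpr h) hs) ?_
    have h2 : cplx (x - z.re • (y + s • e)) + Complex.I • cplx ((-z.im * s) • e + (-z.im) • y) =
        (-1 : ℂ) • fun i => z * ((y + s • e) i : ℂ) - (x i : ℂ) := by
      ext l
      apply Complex.ext <;> simp [cplx] <;> ring
    rw [h2, aeval_smul_hom hd, hz, mul_zero]
  · refine tube_ne_zero hp hd (cone_smul hd (c := z.im) h hy) (-x + z.re • (y + s • e))
      (mul_pos h hs) ?_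
    have h2 : cplx (-x + z.re • (y + s • e)) + Complex.I • cplx ((z.im * s) • e + z.im • y) =
        fun i => z * ((y + s • e) i : ℂ) - (x i : ℂ) := by
      ext l
      apply Complex.ext <;> simp [cplx] <;> ring
    rw [h2, hz]

lemma cone_add' (hp : IsHyperbolicPoly p e) (hd : p.IsHomogeneous d) {v w : Fin n → ℝ}
    (hv : v ∈ hyperbolicityCone p e) (hw : w ∈ hyperbolicityCone p e) :
    v + w ∈ hyperbolicityCone p e := by
  refine mem_of_shift_ne hd fun s hs => ?_
  set b := v + (s / 2) • e with hb
  have hbh := hyperbolic_shift hp hd hv (half_pos hs)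
  let g : ℝ → (Fin n → ℝ) := fun r => r • w + (r * (s / 2) + (1 - r)) • e
  have hg : Continuous g := by fun_prop
  have hc : ∀ r ∈ Set.Icc (0 : ℝ) 1, 0 < r * (s / 2) + (1 - r) := by
    intro r hr
    rcases hr.2.lt_or_eq with h | h
    · nlinarith [mul_nonneg hr.1 hs.le]
    · subst h; linarith
  have hne : ∀ r ∈ Set.Icc (0 : ℝ) 1, MvPolynomial.eval (g r) p ≠ 0 := by
    intro r hr
    rcases hr.1.lt_or_eq with h | h
    · exact eval_ne_zero_of_strict hd (cone_smul hd h hw) (hc r hr)
    · subst h
      simpa [g] using hp.2.1.ne'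
  have h0 : g 0 ∈ hyperbolicityCone p b := by
    refine mem_of_shift_ne hd fun t ht => ?_
    have h1 : g 0 + t • b = t • v + (t * (s / 2) + 1) • e := by
      simp [g, hb, smul_add, smul_smul, add_smul]; abel
    rw [h1]
    exact eval_ne_zero_of_strict hd (cone_smul hd ht hv) (by positivity)
  have hsub : Set.Icc (0 : ℝ) 1 ⊆ g ⁻¹' hyperbolicityCone p b := by
    refine (((cone_closed hbh hd).preimage hg).inter isClosed_Icc).Icc_subset_of_forall_mem_nhdsWithin
      h0 fun r hr => ?_
    exact mem_nhdsWithin_of_mem_nhds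
      (hg.continuousAt.preimage_mem_nhds (cone_eventually hbh hd hr.1 (hne r ⟨hr.2.1, hr.2.2.le⟩)))
  have h1 := hsub (Set.right_mem_Icc.mpr zero_le_one)
  intro hzero
  have := h1 (-1) ?_
  · linarith
  have h2 : (-1 : ℝ) • b - g 1 = -(v + w + s • e) := by
    ext l; simp [g, hb]; ring
  rw [h2, eval_neg_hom hd, hzero, mul_zero]

/-- Descending a path: a point is in the cone when the segment towards a point of the cone
avoids the zero set. -/
lemma mem_of_segment (hp : IsHyperbolicPoly p e) (hd : p.IsHomogeneous d) {y : Fin n → ℝ} {T : ℝ}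
    (hT : y + T • e ∈ hyperbolicityCone p e)
    (h : ∀ s : ℝ, 0 < s → s ≤ T → MvPolynomial.eval (y + s • e) p ≠ 0) :
    y ∈ hyperbolicityCone p e := by
  refine mem_of_shift_ne hd fun s hs => ?_
  by_cases hsT : s ≤ T
  · exact h s hs hsT
  · have : y + s • e = y + T • e + (s - T) • e := by rw [sub_smul]; abel
    rw [this]
    exact eval_ne_zero_of_strict hd hT (by linarith [not_le.mp hsT])

lemma line_coeff_top (hd : p.IsHomogeneous d) (y v : Fin n → ℝ) :
    (line p y v).coeff d = MvPolynomial.eval v p := by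
  have h : (line p y v).map (algebraMap ℝ ℂ) = linePoly p (cplx y) (cplx v) := by
    refine Polynomial.funext fun z => ?_
    rw [linePoly_eval, ← line_aeval, eval_map, aeval_def]
  have := congrArg (fun P => Polynomial.coeff P d) h
  simp only [coeff_map, linePoly_coeff hd, aeval_cplx] at this
  exact Complex.ofReal_injective this

lemma line_coeff_nonneg (hp : IsHyperbolicPoly p e) (hd : p.IsHomogeneous d) {y : Fin n → ℝ}
    (hy : y ∈ hyperbolicityCone p e) (j : ℕ) : 0 ≤ (line p y e).coeff j := by
  have hne : (line p y e).coeff d ≠ 0 := by rw [line_coeff_top hd]; exact hp.2.1.ne'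
  have hdeg : (line p y e).natDegree = d :=
    natDegree_eq_of_le_of_coeff_ne_zero (line_natDegree_le p y e hd.totalDegree_le) hne
  refine nonneg_of_roots_nonpos d _ hdeg.le ?_ (fun z hz => ?_) (fun t ht => ?_) j
  · rw [Polynomial.leadingCoeff, hdeg, line_coeff_top hd]
    exact hp.2.1.le
  · refine hp.2.2 (-y) z ?_
    rw [line_aeval] at hz
    rw [← hz]
    congr 1
    apply congrArg
    ext l; simp [cplx]; ring
  · rw [line_eval]
    exact eval_ne_zero_of_strict hd hy ht

lemma isClosed_ctrl (N : ℕ) : IsClosed {c : ℕ → ℝ | Ctrl N c} := by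
  simp only [Ctrl, Set.setOf_and, Set.setOf_forall]
  refine (isClosed_le continuous_const (by fun_prop)).inter
    (isClosed_iInter fun j => isClosed_le (by fun_prop) ?_)
  fun_prop

lemma ctrl_line (hp : IsHyperbolicPoly p e) (hd : p.IsHomogeneous d) {y : Fin n → ℝ}
    (hy : y ∈ hyperbolicityCone p e) {s : ℝ} (hs : 0 < s) (w : Fin n → ℝ) :
    Ctrl d (line p (y + s • e) w).coeff := by
  have hb := hyperbolic_shift hp hd hy hs
  refine ctrl_of_realRooted d _ (line_natDegree_le p _ _ hd.totalDegree_le) fun z hz => ?_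
  rw [line_aeval] at hz
  by_cases hz0 : z = 0
  · simp [hz0]
  have h1 : cplx (y + s • e) + z • cplx w =
      z • fun i => z⁻¹ * ((y + s • e) i : ℂ) - ((-w) i : ℂ) := by
    ext l
    simp [cplx]
    field_simp
  rw [h1, aeval_smul_hom hd, mul_eq_zero] at hz
  have := hb.2.2 (-w) z⁻¹ (hz.resolve_left (pow_ne_zero _ hz0))
  rw [Complex.inv_im, div_eq_zero_iff] at this
  rcases this with h | h
  · linarith
  · exact absurd (Complex.normSq_eq_zero.mp h) hz0

/-- The polynomial `z ↦ q (x + z)`. -/
noncomputable def transl (x : Fin n → ℝ) (q : MvPolynomial (Fin n) ℝ) : MvPolynomial (Fin n) ℝ :=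
  MvPolynomial.aeval (fun i => MvPolynomial.X i + MvPolynomial.C (x i)) q

lemma eval_transl (x z : Fin n → ℝ) (q : MvPolynomial (Fin n) ℝ) :
    MvPolynomial.eval z (transl x q) = MvPolynomial.eval (x + z) q := by
  induction q using MvPolynomial.induction_on with
  | C r => simp [transl]
  | add p q hp hq =>
    simp only [transl, map_add] at hp hq ⊢
    rw [hp, hq]
  | mul_X p i hp =>
    simp only [transl, map_mul, MvPolynomial.aeval_X] at hp ⊢
    rw [hp]
    simp [add_comm (z i)]

/-- The degree `k` part of `q` around `x`. -/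
noncomputable def taylor (x : Fin n → ℝ) (q : MvPolynomial (Fin n) ℝ) (k : ℕ) :
    MvPolynomial (Fin n) ℝ :=
  MvPolynomial.homogeneousComponent k (transl x q)

lemma taylor_hom (x : Fin n → ℝ) (q : MvPolynomial (Fin n) ℝ) (k : ℕ) :
    (taylor x q k).IsHomogeneous k :=
  MvPolynomial.homogeneousComponent_isHomogeneous k _

lemma line_eq_taylor (x z : Fin n → ℝ) (q : MvPolynomial (Fin n) ℝ) :
    line q x z = ∑ k ∈ Finset.range ((transl x q).totalDegree + 1),
      C (MvPolynomial.eval z (taylor x q k)) * X ^ k := by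
  refine Polynomial.funext fun t => ?_
  rw [line_eval, ← eval_transl]
  conv_lhs => rw [← MvPolynomial.sum_homogeneousComponent (transl x q)]
  simp only [map_sum, eval_finsetSum, eval_mul, eval_C, eval_pow, eval_X]
  refine Finset.sum_congr rfl fun k _ => ?_
  rw [eval_smul_hom (MvPolynomial.homogeneousComponent_isHomogeneous k _), mul_comm]
  rfl

lemma line_coeff_taylor (x z : Fin n → ℝ) (q : MvPolynomial (Fin n) ℝ) (k : ℕ) :
    (line q x z).coeff k = MvPolynomial.eval z (taylor x q k) := by
  rw [line_eq_taylor, finsetSum_coeff]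
  simp only [coeff_C_mul_X_pow]
  rw [Finset.sum_ite_eq]
  split_ifs with h
  · rfl
  · rw [taylor, MvPolynomial.homogeneousComponent_eq_zero _ _ (by simpa using h), map_zero]

end Vale.Agent.P256.Iso
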