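import Vale.Agent.P256.Iso.Tangent

/-! Sets covered by a semidefinite cone inside a hyperbolicity cone, and auxiliary linear
algebra. -/

namespace Vale.Agent.P256.Iso

open Matrix Topology Filter

variable {n d : ℕ} {p : MvPolynomial (Fin n) ℝ} {e : Fin n → ℝ}

/-- `A` lies in a conic spectrahedral shadow inside the cone. -/
def Coverable (p : MvPolynomial (Fin n) ℝ) (e : Fin n → ℝ) (A : Set (Fin n → ℝ)) : Prop :=
  ∃ S : Set (Fin n → ℝ), IsSpectrahedralShadow S ∧ S ⊆ hyperbolicityCone p e ∧ 0 ∈ S ∧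
    (∀ c : ℝ, 0 ≤ c → ∀ y ∈ S, c • y ∈ S) ∧ A ⊆ S

lemma Coverable.mono {A B : Set (Fin n → ℝ)} (h : Coverable p e A) (hB : B ⊆ A) :
    Coverable p e B := by
  obtain ⟨S, h1, h2, h3, h4, h5⟩ := h
  exact ⟨S, h1, h2, h3, h4, hB.trans h5⟩

/-- The Minkowski sum of two spectrahedral shadows is a spectrahedral shadow. -/
lemma shadow_add {S T : Set (Fin n → ℝ)} (hS : IsSpectrahedralShadow S)
    (hT : IsSpectrahedralShadow T) :
    IsSpectrahedralShadow {x | ∃ y ∈ S, ∃ z ∈ T, x = y + z} := by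
  obtain ⟨a, m, A₀, A, C, hA₀, hA, hC, rfl⟩ := hS
  obtain ⟨a', m', B₀, B, C', hB₀, hB, hC', rfl⟩ := hT
  let L1 : ((Fin n → ℝ) × (Fin n ⊕ (Fin a ⊕ Fin a') → ℝ)) → Matrix (Fin m) (Fin m) ℝ :=
    fun q => ∑ i, q.2 (Sum.inl i) • A i + ∑ j, q.2 (Sum.inr (Sum.inl j)) • C j
  let L2 : ((Fin n → ℝ) × (Fin n ⊕ (Fin a ⊕ Fin a') → ℝ)) → Matrix (Fin m') (Fin m') ℝ :=
    fun q => ∑ i, (q.1 i - q.2 (Sum.inl i)) • B i + ∑ j, q.2 (Sum.inr (Sum.inr j)) • C' j
  refine shadow_of_affine (ι := Fin n ⊕ (Fin a ⊕ Fin a')) (fromBlocks A₀ 0 0 B₀)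
    (IsSymm.fromBlocks hA₀ (by simp) hB₀)
    { toFun := fun q => fromBlocks (L1 q) 0 0 (L2 q), map_add' := ?_, map_smul' := ?_ } ?_ ?_
  · intro q q'
    simp only [fromBlocks_add, L1, L2, Prod.snd_add, Prod.fst_add, Pi.add_apply, add_zero,
      add_sub_add_comm, add_smul, Finset.sum_add_distrib]
    congr 1 <;> abel
  · intro c q
    simp only [fromBlocks_smul, L1, L2, Prod.smul_snd, Prod.smul_fst, Pi.smul_apply, smul_eq_mul,
      RingHom.id_apply, smul_zero, smul_add, Finset.smul_sum, smul_smul, mul_sub]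
  · intro q
    simp only [LinearMap.coe_mk, AddHom.coe_mk]
    refine IsSymm.fromBlocks ?_ (by simp) ?_
    · ext r s
      simp [L1, Matrix.sum_apply, fun i => (hA i).apply r s, fun j => (hC j).apply r s]
    · ext r s
      simp [L2, Matrix.sum_apply, fun i => (hB i).apply r s, fun j => (hC' j).apply r s]
  intro x
  simp only [LinearMap.coe_mk, AddHom.coe_mk, fromBlocks_add, add_zero, posSemidef_fromBlocks_iff,
    L1, L2, Set.mem_ofPred_eq, ← add_assoc]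
  constructor
  · rintro ⟨y, ⟨u, hu⟩, z, ⟨u', hu'⟩, rfl⟩
    refine ⟨Sum.elim y (Sum.elim u u'), ?_, ?_⟩
    · simpa using hu
    · simpa using hu'
  · rintro ⟨w, h1, h2⟩
    exact ⟨fun i => w (Sum.inl i), ⟨_, h1⟩, fun i => x i - w (Sum.inl i), ⟨_, h2⟩,
      by ext i; simp⟩

lemma coverable_union (hp : IsHyperbolicPoly p e) (hd : p.IsHomogeneous d)
    {A B : Set (Fin n → ℝ)} (hA : Coverable p e A) (hB : Coverable p e B) :
    Coverable p e (A ∪ B) := by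
  obtain ⟨S, hS, hSK, hS0, hSc, hAS⟩ := hA
  obtain ⟨T, hT, hTK, hT0, hTc, hBT⟩ := hB
  refine ⟨{x | ∃ y ∈ S, ∃ z ∈ T, x = y + z}, shadow_add hS hT, ?_,
    ⟨0, hS0, 0, hT0, (add_zero 0).symm⟩, ?_, ?_⟩
  · rintro x ⟨y, hy, z, hz, rfl⟩
    exact cone_add' hp hd (hSK hy) (hTK hz)
  · rintro c hc x ⟨y, hy, z, hz, rfl⟩
    exact ⟨c • y, hSc c hc y hy, c • z, hTc c hc z hz, smul_add _ _ _⟩
  · rintro x (hx | hx)
    · exact ⟨x, hAS hx, 0, hT0, (add_zero x).symm⟩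
    · exact ⟨0, hS0, x, hBT hx, (zero_add x).symm⟩

lemma coverable_ray (hp : IsHyperbolicPoly p e) (hd : p.IsHomogeneous d) {y : Fin n → ℝ}
    (hy : y ∈ hyperbolicityCone p e) :
    Coverable p e {x | ∃ c : ℝ, 0 ≤ c ∧ x = c • y} := by
  refine ⟨{x | ∃ c : ℝ, 0 ≤ c ∧ x = c • y}, ?_, ?_, ⟨0, le_rfl, (zero_smul ℝ y).symm⟩, ?_,
    subset_rfl⟩
  · classical
    let g : ((Fin n → ℝ) × (Unit → ℝ)) → (Fin n ⊕ Fin n) ⊕ Unit → ℝ := fun q =>
      Sum.elim (Sum.elim (fun i => q.1 i - q.2 () * y i) fun i => q.2 () * y i - q.1 i)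
        fun _ => q.2 ()
    refine shadow_of_affine (ι := Unit) 0 (by simp)
      { toFun := fun q => diagonal (g q), map_add' := ?_, map_smul' := ?_ } (fun _ => isSymm_diagonal _) ?_
    · intro q q'
      rw [diagonal_add]
      congr 1
      funext i
      rcases i with ((i | i) | i) <;> simp [g] <;> ring
    · intro c q
      rw [RingHom.id_apply, ← diagonal_smul]
      congr 1
      funext i
      rcases i with ((i | i) | i) <;> simp [g] <;> ring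
    intro x
    simp only [LinearMap.coe_mk, AddHom.coe_mk, zero_add, posSemidef_diagonal_iff,
      Set.mem_ofPred_eq]
    constructor
    · rintro ⟨c, hc, rfl⟩
      refine ⟨fun _ => c, ?_⟩
      rintro ((i | i) | i) <;> simp [g, hc]
    · rintro ⟨u, hu⟩
      refine ⟨u (), hu (Sum.inr ()), funext fun i => ?_⟩
      have h1 := hu (Sum.inl (Sum.inl i))
      have h2 := hu (Sum.inl (Sum.inr i))
      simp only [g, Sum.elim_inl, Sum.elim_inr] at h1 h2
      simp only [Pi.smul_apply, smul_eq_mul]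
      linarith
  · rintro x ⟨c, hc, rfl⟩
    rcases hc.lt_or_eq with h | h
    · exact cone_smul hd h hy
    · rw [← h, zero_smul]; exact cone_zero hp hd
  · rintro c hc x ⟨c', hc', rfl⟩
    exact ⟨c * c', mul_nonneg hc hc', smul_smul c c' y⟩

lemma coverable_empty (hp : IsHyperbolicPoly p e) (hd : p.IsHomogeneous d) :
    Coverable p e ∅ :=
  (coverable_ray hp hd (cone_zero hp hd)).mono (Set.empty_subset _)

/-- A finite parametrisation of a subspace with linear coordinates. -/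
lemma exists_param (W : Submodule ℝ (Fin n → ℝ)) :
    ∃ (k : ℕ) (B : Fin k → Fin n → ℝ) (co : (Fin n → ℝ) →ₗ[ℝ] (Fin k → ℝ)),
      (∀ u : Fin k → ℝ, ∑ j, u j • B j ∈ W) ∧
      (∀ u : Fin k → ℝ, ∑ j, u j • B j = 0 → u = 0) ∧
      ∀ w ∈ W, ∑ j, co w j • B j = w := by
  classical
  let b := Module.finBasis ℝ W
  obtain ⟨f, hf⟩ := LinearMap.exists_extend b.equivFun.toLinearMap
  refine ⟨_, fun j => (b j : Fin n → ℝ), f, fun u => W.sum_mem fun j _ => W.smul_mem _ (b j).2,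
    fun u hu => ?_, fun w hw => ?_⟩
  · have h : ∑ j, u j • b j = 0 := Subtype.ext (by simpa using hu)
    exact funext (Fintype.linearIndependent_iff.mp b.linearIndependent u h)
  · have h : f w = b.equivFun ⟨w, hw⟩ := LinearMap.congr_fun hf ⟨w, hw⟩
    have h2 := congrArg (fun q : W => (q : Fin n → ℝ)) (b.sum_equivFun ⟨w, hw⟩)
    rw [h]
    simp only [AddSubmonoidClass.coe_finsetSum] at h2
    exact h2

lemma exists_functional {x : Fin n → ℝ} (hx : x ≠ 0) :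
    ∃ ℓ : (Fin n → ℝ) →ₗ[ℝ] ℝ, ℓ x = 1 := by
  obtain ⟨i, hi⟩ : ∃ i, x i ≠ 0 := Function.ne_iff.mp hx
  exact ⟨(x i)⁻¹ • LinearMap.proj i, by simp [hi]⟩

lemma exists_second_functional {x v : Fin n → ℝ} (ℓ : (Fin n → ℝ) →ₗ[ℝ] ℝ) (hℓ : ℓ x = 1)
    (hℓv : ℓ v = 0) (hv : v ≠ 0) :
    ∃ φ : (Fin n → ℝ) →ₗ[ℝ] ℝ, φ x = 0 ∧ φ v = 1 := by
  obtain ⟨j, hj⟩ : ∃ j, v j ≠ 0 := Function.ne_iff.mp hv
  exact ⟨(v j)⁻¹ • (LinearMap.proj j - x j • ℓ), by simp [hℓ], by simp [hℓv, hj]⟩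

end Vale.Agent.P256.Iso
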