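import Vale.Agent.P256.Iso.Moment

/-! Exactness of the moment lifts for strictly convex constraints, with and without a cone apex. -/

namespace Vale.Agent.P256.Iso

open MvPolynomial Topology Filter
open scoped BigOperators

variable {k n : ℕ}

/-- A quadratic-type function positive where `r` vanishes dominates the square norm after adding a
multiple of `r`. -/
lemma exists_shift {ι : Type} [Fintype ι] (q r : (ι → ℝ) → ℝ) (hq : Continuous q)
    (hr : Continuous r) (hqs : ∀ (t : ℝ) z, q (t • z) = t ^ 2 * q z)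
    (hrs : ∀ (t : ℝ) z, r (t • z) = t ^ 2 * r z) (hr0 : ∀ z, 0 ≤ r z)
    (h : ∀ z, z ≠ 0 → r z = 0 → 0 < q z) :
    ∃ N, 0 ≤ N ∧ ∃ lam, 0 < lam ∧ ∀ z, lam * ∑ i, z i ^ 2 ≤ q z + N * r z := by
  classical
  by_cases hne : IsEmpty ι
  · refine ⟨0, le_rfl, 1, one_pos, fun z => ?_⟩
    have := hqs 0 z
    rw [zero_smul, show (0 : ι → ℝ) = z from funext fun i => (hne.false i).elim] at this
    rw [Finset.univ_eq_empty, Finset.sum_empty, this]
    linarith [show (0 : ℝ) ^ 2 * q z = 0 by ring]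
  let S := Metric.sphere (0 : ι → ℝ) 1
  have hcov : S ⊆ ⋃ N : ℕ, {z | 0 < q z + N * r z} := by
    intro z hz
    have hz0 : z ≠ 0 := Metric.ne_of_mem_sphere hz one_ne_zero
    refine Set.mem_iUnion.mpr ?_
    rcases (hr0 z).lt_or_eq with h1 | h1
    · obtain ⟨N, hN⟩ := exists_nat_gt (-q z / r z)
      exact ⟨N, by have := (div_lt_iff₀ h1).mp hN; simp only [Set.mem_ofPred_eq]; linarith⟩
    · exact ⟨0, by simpa using h z hz0 h1.symm⟩
  obtain ⟨N, hN⟩ := (isCompact_sphere (0 : ι → ℝ) 1).elim_directed_cover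
    (fun N : ℕ => {z | 0 < q z + N * r z})
    (fun N => isOpen_lt continuous_const (hq.add (continuous_const.mul hr))) hcov
    (fun a b => ⟨max a b, fun z hz => by
        simp only [Set.mem_ofPred_eq] at hz ⊢
        have : (a : ℝ) ≤ (max a b : ℕ) := by exact_mod_cast le_max_left a b
        nlinarith [hr0 z], fun z hz => by
        simp only [Set.mem_ofPred_eq] at hz ⊢
        have : (b : ℝ) ≤ (max a b : ℕ) := by exact_mod_cast le_max_right a b
        nlinarith [hr0 z]⟩)
  have hSne : S.Nonempty := by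
    obtain ⟨i⟩ := not_isEmpty_iff.mp hne
    exact ⟨Pi.single i 1, by simp [S, Pi.norm_single]⟩
  obtain ⟨z0, hz0, hmin⟩ := (isCompact_sphere (0 : ι → ℝ) 1).exists_isMinOn hSne
    (hq.add (continuous_const.mul hr) :
      Continuous fun z => q z + (N : ℝ) * r z).continuousOn
  refine ⟨N, Nat.cast_nonneg N, (q z0 + N * r z0) / Fintype.card ι, ?_, fun z => ?_⟩
  · have := not_isEmpty_iff.mp hne
    exact div_pos (hN hz0) (by exact_mod_cast Fintype.card_pos)
  by_cases hz : z = 0
  · subst hz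
    have h1 := hqs 0 (0 : ι → ℝ)
    have h2 := hrs 0 (0 : ι → ℝ)
    simp at h1 h2
    simp [h1, h2]
  have hnz : 0 < ‖z‖ := norm_pos_iff.mpr hz
  have hmem : ‖z‖⁻¹ • z ∈ S := by simp [S, norm_smul, inv_mul_cancel₀ hnz.ne']
  have h1 := hmin hmem
  simp only [Set.mem_ofPred_eq, Pi.add_apply] at h1
  rw [hqs, hrs] at h1
  have hsum : ∑ i, z i ^ 2 ≤ Fintype.card ι * ‖z‖ ^ 2 := by
    have hle : ∀ i ∈ (Finset.univ : Finset ι), z i ^ 2 ≤ ‖z‖ ^ 2 := fun i _ =>
      sq_le_sq.mpr (by
        rw [abs_of_nonneg (norm_nonneg z)]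
        simpa [Real.norm_eq_abs] using norm_le_pi_norm z i)
    simpa using Finset.sum_le_card_nsmul _ _ _ hle
  have hcard : (0 : ℝ) < Fintype.card ι := by
    have := not_isEmpty_iff.mp hne
    exact_mod_cast Fintype.card_pos
  have h1' : (q z0 + N * r z0) * ‖z‖ ^ 2 ≤ q z + N * r z := by
    calc (q z0 + N * r z0) * ‖z‖ ^ 2
        ≤ (‖z‖⁻¹ ^ 2 * q z + N * (‖z‖⁻¹ ^ 2 * r z)) * ‖z‖ ^ 2 :=
          mul_le_mul_of_nonneg_right h1 (sq_nonneg _)
      _ = q z + N * r z := by field_simp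
  calc (q z0 + N * r z0) / Fintype.card ι * ∑ i, z i ^ 2
      ≤ (q z0 + N * r z0) / Fintype.card ι * (Fintype.card ι * ‖z‖ ^ 2) :=
        mul_le_mul_of_nonneg_left hsum (div_nonneg (hN hz0).le hcard.le)
    _ = (q z0 + N * r z0) * ‖z‖ ^ 2 := by field_simp
    _ ≤ q z + N * r z := h1'

/-- The substitution of a free variable and a fixed point. -/
noncomputable def spec (y : Fin k → ℝ) : Fin k ⊕ Fin k → MvPolynomial (Fin k) ℝ :=
  Sum.elim X fun i => C (y i)

lemma bregman_eval (G : MvPolynomial (Fin k) ℝ) :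
    ∃ H : Fin k → Fin k → MvPolynomial (Fin k ⊕ Fin k) ℝ, ∀ z y : Fin k → ℝ,
      eval z G - eval y G - ∑ i, eval y (pderiv i G) * (z i - y i) =
        ∑ i, ∑ j, eval (Sum.elim z y) (H i j) * ((z i - y i) * (z j - y j)) := by
  classical
  induction G using MvPolynomial.induction_on with
  | C c => exact ⟨0, fun z y => by simp⟩
  | add P Q hP hQ =>
    obtain ⟨H1, h1⟩ := hP
    obtain ⟨H2, h2⟩ := hQ
    refine ⟨H1 + H2, fun z y => ?_⟩
    simp only [Pi.add_apply, map_add, add_mul, Finset.sum_add_distrib, ← h1, ← h2]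
    ring
  | mul_X P l hP =>
    obtain ⟨H, h⟩ := hP
    refine ⟨fun i j => X (Sum.inl l) * H i j +
      if i = l then rename Sum.inr (pderiv j P) else 0, fun z y => ?_⟩
    have h1 : ∀ i, eval y (pderiv i (P * X l)) =
        eval y (pderiv i P) * y l + if i = l then eval y P else 0 := by
      intro i
      rw [pderiv_mul, pderiv_X]
      by_cases hi : i = l <;> simp [hi, Pi.single_apply, Ne.symm]
    have h2 : ∀ i j, eval (Sum.elim z y)
        (X (Sum.inl l) * H i j + if i = l then rename Sum.inr (pderiv j P) else 0) =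
        z l * eval (Sum.elim z y) (H i j) + if i = l then eval y (pderiv j P) else 0 := by
      intro i j
      split_ifs <;> simp [eval_rename, Function.comp_def]
    simp only [h1, h2, add_mul, ite_mul, zero_mul, Finset.sum_add_distrib, Finset.sum_ite_eq',
      Finset.mem_univ, if_true]
    have h3 : ∑ i, ∑ j, z l * eval (Sum.elim z y) (H i j) * ((z i - y i) * (z j - y j)) =
        z l * (eval z P - eval y P - ∑ i, eval y (pderiv i P) * (z i - y i)) := by
      rw [h]; simp only [Finset.mul_sum]; simp only [mul_assoc]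
    have h4 : ∑ i, ∑ j, (if i = l then eval y (pderiv j P) * ((z i - y i) * (z j - y j)) else 0) =
        (z l - y l) * ∑ j, eval y (pderiv j P) * (z j - y j) := by
      rw [Finset.sum_comm, Finset.mul_sum]
      simp only [Finset.sum_ite_eq', Finset.mem_univ, if_true]
      exact Finset.sum_congr rfl fun j _ => by ring
    have h5 : ∑ i, eval y (pderiv i P) * y l * (z i - y i) =
        y l * ∑ i, eval y (pderiv i P) * (z i - y i) := by
      rw [Finset.mul_sum]; exact Finset.sum_congr rfl fun j _ => by ring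
    rw [h3, h4, h5]
    simp only [map_mul, eval_X]
    ring

lemma bregman_poly (G : MvPolynomial (Fin k) ℝ) :
    ∃ H : Fin k → Fin k → MvPolynomial (Fin k ⊕ Fin k) ℝ,
      (∀ y : Fin k → ℝ, G - C (eval y G) - ∑ i, C (eval y (pderiv i G)) * (X i - C (y i)) =
        ∑ i, ∑ j, aeval (spec y) (H i j) * ((X i - C (y i)) * (X j - C (y j)))) ∧
      ∀ z : Fin k → ℝ,
        (line G 0 z).coeff 2 = ∑ i, ∑ j, coeff 0 (H i j) * z i * z j := by
  obtain ⟨H, hH⟩ := bregman_eval G
  have key : ∀ (y z : Fin k → ℝ) (P : MvPolynomial (Fin k ⊕ Fin k) ℝ),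
      eval z (aeval (spec y) P) = eval (Sum.elim z y) P := by
    intro y z P
    induction P using MvPolynomial.induction_on with
    | C r => simp
    | add p q hp hq => simp only [map_add]; rw [hp, hq]
    | mul_X p i hp => rcases i with i | i <;> (simp only [map_mul, aeval_X]; rw [hp]; simp [spec])
  have hid : ∀ y : Fin k → ℝ, G - C (eval y G) - ∑ i, C (eval y (pderiv i G)) * (X i - C (y i)) =
      ∑ i, ∑ j, aeval (spec y) (H i j) * ((X i - C (y i)) * (X j - C (y j))) := fun y =>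
    MvPolynomial.funext fun z => by
      simp only [map_sub, map_sum, map_mul, eval_C, eval_X, key]
      exact hH z y
  refine ⟨H, hid, fun z => ?_⟩
  have h0 := congrArg (fun P => line P 0 z) (hid 0)
  simp only [line, map_sub, map_sum, map_mul, aeval_C, aeval_X, Pi.zero_apply, map_zero, zero_add,
    sub_zero, Polynomial.algebraMap_eq] at h0
  have h2 := congrArg (fun P => Polynomial.coeff P 2) h0
  simp only [Polynomial.coeff_sub, Polynomial.finsetSum_coeff] at h2
  have e1 : ∀ (c d : ℝ), (Polynomial.C c * (Polynomial.C d * Polynomial.X)).coeff 2 = 0 :=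
    fun c d => by rw [← mul_assoc, ← Polynomial.C_mul, Polynomial.coeff_C_mul_X]; simp
  have e2 : ∀ (P : Polynomial ℝ) (c d : ℝ),
      (P * (Polynomial.C c * Polynomial.X * (Polynomial.C d * Polynomial.X))).coeff 2 =
        P.coeff 0 * c * d := by
    intro P c d
    rw [show P * (Polynomial.C c * Polynomial.X * (Polynomial.C d * Polynomial.X)) =
      Polynomial.C (c * d) * (P * Polynomial.X ^ 2) by rw [Polynomial.C_mul]; ring,
      Polynomial.coeff_C_mul, Polynomial.coeff_mul_X_pow]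
    ring
  simp only [e1, e2, Polynomial.coeff_C, Finset.sum_const_zero, sub_zero,
    if_neg (show ¬(2 : ℕ) = 0 by norm_num)] at h2
  rw [line]
  simp only [Pi.zero_apply, map_zero, zero_add]
  rw [h2]
  refine Finset.sum_congr rfl fun i _ => Finset.sum_congr rfl fun j _ => ?_
  congr 2
  have h3 := line_coeff_zero (aeval (spec (0 : Fin k → ℝ)) (H i j)) 0 z
  rw [line] at h3
  simp only [Pi.zero_apply, map_zero, zero_add] at h3
  rw [h3, key]
  have : (Sum.elim (0 : Fin k → ℝ) 0) = (0 : Fin k ⊕ Fin k → ℝ) := by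
    ext (i | i) <;> rfl
  rw [this, eval_zero]
  rfl

lemma exists_bound (H : Fin k → Fin k → MvPolynomial (Fin k ⊕ Fin k) ℝ) :
    ∃ (D : ℕ) (B : ℝ), 0 ≤ B ∧ 2 ≤ D ∧ (∀ i j, 1 + (H i j).totalDegree ≤ D) ∧
      ∀ i j, (∑ s ∈ (H i j).support, |coeff s (H i j)|) ≤ B := by
  refine ⟨2 + ∑ i, ∑ j, (H i j).totalDegree, ∑ i, ∑ j, ∑ s ∈ (H i j).support, |coeff s (H i j)|,
    by positivity, Nat.le_add_right _ _, fun i j => ?_, fun i j => ?_⟩
  · have h1 : (H i j).totalDegree ≤ ∑ j', (H i j').totalDegree :=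
      Finset.single_le_sum (f := fun j' => (H i j').totalDegree) (fun _ _ => Nat.zero_le _)
        (Finset.mem_univ j)
    have h2 : ∑ j', (H i j').totalDegree ≤ ∑ i', ∑ j', (H i' j').totalDegree :=
      Finset.single_le_sum (f := fun i' => ∑ j', (H i' j').totalDegree) (fun _ _ => Nat.zero_le _)
        (Finset.mem_univ i)
    omega
  · exact le_trans (Finset.single_le_sum (f := fun j' => ∑ s ∈ (H i j').support, |coeff s (H i j')|)
      (fun _ _ => by positivity) (Finset.mem_univ j))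
      (Finset.single_le_sum (f := fun i' => ∑ j', ∑ s ∈ (H i' j').support, |coeff s (H i' j')|)
        (fun _ _ => by positivity) (Finset.mem_univ i))

lemma boxSubst_spec {D : ℕ} {δ : ℝ} {M : MvPolynomial (Fin k) ℝ →ₗ[ℝ] ℝ} (hM : BoxPos D δ M)
    {y : Fin k → ℝ} (hy : ∀ i, |y i| ≤ δ) : BoxSubst D δ M (spec y) := by
  rintro (i | i)
  · exact ⟨by simp [spec], fun h hh => by simpa [spec] using hM.2 i h hh⟩
  · refine ⟨by simp [spec], fun h hh => ?_⟩
    have : spec y (Sum.inr i) * spec y (Sum.inr i) * (h * h) = (y i ^ 2) • (h * h) := by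
      simp [spec, smul_eq_C_mul, pow_two, map_mul]
    rw [this, map_smul, smul_eq_mul]
    refine mul_le_mul_of_nonneg_right ?_ (hM.1 h hh)
    exact sq_le_sq.mpr ((hy i).trans (le_abs_self δ))

lemma coord_bound {D : ℕ} {δ : ℝ} {M : MvPolynomial (Fin k) ℝ →ₗ[ℝ] ℝ} (hM : BoxPos D δ M)
    (hD : 1 ≤ D) (hδ : 0 < δ) (i : Fin k) : |M (X i)| ≤ δ * M 1 := by
  have hφ : BoxSubst D δ M (X : Fin k → MvPolynomial (Fin k) ℝ) := fun j =>
    ⟨by simp, fun h hh => hM.2 j h hh⟩
  have := mono_bound hM hδ hφ (Finsupp.single i 1) 1 (by simp [Finsupp.degree_single]; omega)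
  rw [show monomial (Finsupp.single i 1) (1 : ℝ) = X i from rfl, aeval_X, one_mul,
    Finsupp.degree_single, pow_one] at this
  simpa using this

/-- The affine parametrisation `x + ∑ j, u j • B j`, coordinatewise. -/
noncomputable def aff (x : Fin n → ℝ) (B : Fin k → Fin n → ℝ) (i : Fin n) :
    MvPolynomial (Fin k) ℝ := C (x i) + ∑ j, C (B j i) * X j

lemma eval_aff (x : Fin n → ℝ) (B : Fin k → Fin n → ℝ) (u : Fin k → ℝ) (i : Fin n) :
    eval u (aff x B i) = (x + ∑ j, u j • B j) i := by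
  simp [aff, Finset.sum_apply, mul_comm]

lemma continuous_coeff_two (G : MvPolynomial (Fin k) ℝ) :
    Continuous fun z : Fin k → ℝ => (line G 0 z).coeff 2 := by
  simp only [line_coeff_taylor]
  exact MvPolynomial.continuous_eval _

lemma coeff_two_smul (G : MvPolynomial (Fin k) ℝ) (t : ℝ) (z : Fin k → ℝ) :
    (line G 0 (t • z)).coeff 2 = t ^ 2 * (line G 0 z).coeff 2 := by
  simp only [line_coeff_taylor]
  exact eval_smul_hom (taylor_hom _ _ _) t z

lemma map_C_mul (L : MvPolynomial (Fin k) ℝ →ₗ[ℝ] ℝ) (c : ℝ) (P : MvPolynomial (Fin k) ℝ) :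
    L (C c * P) = c * L P := by
  rw [← smul_eq_C_mul, map_smul, smul_eq_mul]

lemma map_C_eq (L : MvPolynomial (Fin k) ℝ →ₗ[ℝ] ℝ) (c : ℝ) : L (C c) = c * L 1 := by
  simpa using map_C_mul L c 1

theorem smooth_piece (x : Fin n → ℝ) (B : Fin k → Fin n → ℝ) (G : MvPolynomial (Fin k) ℝ)
    (hpd : ∀ u : Fin k → ℝ, u ≠ 0 → 0 < (line G 0 u).coeff 2) :
    ∃ δ₀ > 0, ∀ δ, 0 < δ → δ ≤ δ₀ → ∃ S : Set (Fin n → ℝ), IsSpectrahedralShadow S ∧
      (∀ (u : Fin k → ℝ) (c : ℝ), (∀ i, |u i| ≤ δ) → eval u G ≤ 0 → 0 ≤ c → c • (x + ∑ j, u j • B j) ∈ S) ∧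
      ∀ y ∈ S, y = 0 ∨ ∃ (T : ℝ) (u : Fin k → ℝ), 0 < T ∧ (∀ i, |u i| ≤ δ) ∧ eval u G ≤ 0 ∧
        y = T • (x + ∑ j, u j • B j) := by
  obtain ⟨H, hid, hq⟩ := bregman_poly G
  obtain ⟨N, -, lam, hlam, hl⟩ := exists_shift (fun z => (line G 0 z).coeff 2)
    (fun _ => (0 : ℝ))
    (continuous_coeff_two G) continuous_const
    (coeff_two_smul G)
    (fun t z => by simp) (fun _ => le_rfl) (fun z hz _ => hpd z hz)
  obtain ⟨D, Bd, hBd, hD2, hD, hB⟩ := exists_bound H
  refine ⟨min 1 (lam / (Bd * k + 1)), lt_min one_pos (by positivity), fun δ hδ hδ0 => ?_⟩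
  have hδ1 : δ ≤ 1 := hδ0.trans (min_le_left _ _)
  have hδB : δ * Bd * (Fintype.card (Fin k) : ℝ) ≤ lam := by
    have := (le_div_iff₀ (by positivity)).mp (hδ0.trans (min_le_right _ _))
    rw [Fintype.card_fin]; nlinarith
  let W : Unit ⊕ Fin k → MvPolynomial (Fin k) ℝ :=
    Sum.elim (fun _ => 1) fun i => C (δ ^ 2) - X i * X i
  refine ⟨lifted W D (aff x B) G, lifted_shadow, fun u c hu hG hc => ?_, fun y hy => ?_⟩
  · have hW : ∀ a, 0 ≤ eval u (W a) := by
      rintro (a | i)
      · simp [W]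
      · simp only [W, Sum.elim_inr, map_sub, eval_C, map_mul, eval_X]
        nlinarith [sq_abs (u i), hu i, abs_nonneg (u i)]
    have := lifted_point (Φ := aff x B) (D := D) hW hG hc
    rw [show (fun i => eval u (aff x B i)) = x + ∑ j, u j • B j from funext (eval_aff x B u)] at this
    exact this
  obtain ⟨L, hpos, hΨ, hyL⟩ := hy
  have hM : BoxPos D δ L := by
    refine ⟨fun h hh => by simpa [W] using hpos (Sum.inl ()) h hh, fun i h hh => ?_⟩
    have := hpos (Sum.inr i) h hh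
    simp only [W, Sum.elim_inr, sub_mul, map_sub, mul_assoc, map_C_mul] at this
    rw [mul_assoc (X i)]
    linarith
  have hT : 0 ≤ L 1 := by simpa using hM.1 1 (by simp)
  have hX := coord_bound hM (by omega) hδ
  have hyi : ∀ i, y i = x i * L 1 + ∑ j, B j i * L (X j) := by
    intro i
    rw [hyL i, aff, map_add, map_sum]
    simp only [C_mul', map_smul, smul_eq_mul]
    rw [show (C (x i) : MvPolynomial (Fin k) ℝ) = x i • 1 by rw [smul_eq_C_mul, mul_one], map_smul,
      smul_eq_mul]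
  rcases hT.lt_or_eq with hT | hT
  swap
  · left
    ext i
    rw [hyi i, ← hT]
    have : ∀ j, L (X j) = 0 := fun j => abs_nonpos_iff.mp (by have := hX j; rw [← hT] at this; simpa using this)
    simp [this]
  right
  set u : Fin k → ℝ := fun j => L (X j) / L 1
  have hu : ∀ j, |u j| ≤ δ := fun j => by
    simp only [u, abs_div, abs_of_pos hT]
    exact (div_le_iff₀ hT).mpr (hX j)
  refine ⟨L 1, u, hT, hu, ?_, ?_⟩
  · have hLu : ∀ j, L (X j) = u j * L 1 := fun j => by simp only [u]; field_simp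
    have h1 := quad_bound hM hδ hδ1 (boxSubst_spec hM hu) (fun i => X i - C (u i))
      (fun i => (totalDegree_sub _ _).trans (by simp)) H hD (fun _ => lam)
      (fun z => by rw [← Finset.mul_sum, ← hq]; simpa using hl z) hB
    rw [← hid u, map_sub, map_sub, map_sum] at h1
    have hC : ∀ (c : ℝ) (P : MvPolynomial (Fin k) ℝ), L (C c * P) = c * L P := fun c P => by
      rw [← smul_eq_C_mul, map_smul, smul_eq_mul]
    have hC1 : ∀ c : ℝ, L (C c) = c * L 1 := fun c => by simpa using hC c 1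
    simp only [hC, map_sub, hC1, hLu, sub_self, mul_zero, Finset.sum_const_zero, sub_zero] at h1
    have h2 : 0 ≤ ∑ i, (lam - δ * Bd * Fintype.card (Fin k)) *
        L ((X i - C (u i)) * (X i - C (u i))) :=
      Finset.sum_nonneg fun i _ => mul_nonneg (by linarith) (hM.1 _
        ((totalDegree_sub _ _).trans (by simp; omega)))
    by_contra hG
    push Not at hG
    nlinarith [mul_pos hG hT]
  · ext i
    rw [hyi i]
    simp only [Pi.smul_apply, Pi.add_apply, Finset.sum_apply, smul_eq_mul, u, mul_add,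
      Finset.mul_sum]
    congr 1
    · ring
    · exact Finset.sum_congr rfl fun j _ => by field_simp

theorem node_piece (x v : Fin n → ℝ) (B : Fin k → Fin n → ℝ) (G : MvPolynomial (Fin (k + 1)) ℝ)
    (hγ : 0 < eval 0 (pderiv 0 G))
    (hpd : ∀ u : Fin k → ℝ, u ≠ 0 → 0 < (line G 0 (Fin.cons 0 u)).coeff 2) :
    ∃ δ₀ > 0, ∀ δ, 0 < δ → δ ≤ δ₀ → ∃ S : Set (Fin n → ℝ), IsSpectrahedralShadow S ∧
      (∀ (z : Fin (k + 1) → ℝ) (c : ℝ), (∀ i, |z i| ≤ δ) → 0 ≤ z 0 → z 0 * eval z G ≤ 0 → 0 ≤ c →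
        c • (x + z 0 • (v + ∑ j, z (Fin.succ j) • B j)) ∈ S) ∧
      ∀ y ∈ S, y = 0 ∨ ∃ (T : ℝ) (z : Fin (k + 1) → ℝ), 0 < T ∧ (∀ i, |z i| ≤ δ) ∧ 0 ≤ z 0 ∧ z 0 * eval z G ≤ 0 ∧
        y = T • (x + z 0 • (v + ∑ j, z (Fin.succ j) • B j)) := by
  obtain ⟨H, hid, hq⟩ := bregman_poly G
  obtain ⟨N, hN, lam, hlam, hl⟩ := exists_shift (fun z => (line G 0 z).coeff 2)
    (fun z : Fin (k + 1) → ℝ => z 0 ^ 2)
    (continuous_coeff_two G)
    ((continuous_apply 0).pow 2)
    (coeff_two_smul G)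
    (fun t z => by simp [mul_pow]) (fun _ => sq_nonneg _) (fun z hz h0 => by
      have hz0 : z 0 = 0 := pow_eq_zero_iff two_ne_zero |>.mp h0
      have hz' : z = Fin.cons 0 (Fin.tail z) := by rw [← hz0, Fin.cons_self_tail]
      have hne : Fin.tail z ≠ 0 := by
        intro h
        apply hz
        rw [hz', h]
        ext i; refine Fin.cases ?_ ?_ i <;> simp
      rw [hz']; exact hpd _ hne)
  obtain ⟨D, Bd, hBd, hD2, hD, hB⟩ := exists_bound H
  set g := eval (0 : Fin (k + 1) → ℝ) (pderiv 0 G)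
  obtain ⟨ρ, hρ, hball⟩ := Metric.eventually_nhds_iff.mp
    ((MvPolynomial.continuous_eval (pderiv 0 G)).continuousAt.eventually_const_lt
      (show g / 2 < g by linarith))
  refine ⟨min (min 1 (ρ / 2)) (min (lam / (Bd * (k + 1) + 1)) (g / (2 * (N + lam) + 1))),
    lt_min (lt_min one_pos (half_pos hρ)) (lt_min (by positivity) (by positivity)),
    fun δ hδ hδ0 => ?_⟩
  have hδ1 : δ ≤ 1 := hδ0.trans ((min_le_left _ _).trans (min_le_left _ _))
  have hδρ : δ ≤ ρ / 2 := hδ0.trans ((min_le_left _ _).trans (min_le_right _ _))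
  have hδB : δ * Bd * (Fintype.card (Fin (k + 1)) : ℝ) ≤ lam := by
    have := (le_div_iff₀ (by positivity)).mp (hδ0.trans ((min_le_right _ _).trans (min_le_left _ _)))
    rw [Fintype.card_fin]; push_cast; nlinarith
  have hδg : δ * (N + lam) ≤ g / 2 := by
    have := (le_div_iff₀ (by positivity)).mp (hδ0.trans ((min_le_right _ _).trans (min_le_right _ _)))
    nlinarith
  let W : (Unit ⊕ Unit) ⊕ (Fin (k + 1) ⊕ Fin (k + 1)) → MvPolynomial (Fin (k + 1)) ℝ :=
    Sum.elim (Sum.elim (fun _ => 1) fun _ => C δ - X 0)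
      (Sum.elim (fun i => C (δ ^ 2) - X i * X i) fun i => X 0 * (C (δ ^ 2) - X i * X i))
  let W' : Unit ⊕ ((Unit ⊕ Unit) ⊕ (Fin (k + 1) ⊕ Fin (k + 1))) → MvPolynomial (Fin (k + 1)) ℝ :=
    Sum.elim (fun _ => X 0) W
  let Φ : Fin n → MvPolynomial (Fin (k + 1)) ℝ := fun i =>
    C (x i) + X 0 * (C (v i) + ∑ j : Fin k, C (B j i) * X j.succ)
  have hΦ : ∀ z i, eval z (Φ i) = (x + z 0 • (v + ∑ j, z (Fin.succ j) • B j)) i := fun z i => by
    simp [Φ, Finset.sum_apply, mul_comm]
    ring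
  refine ⟨lifted W' D Φ (X 0 * G), lifted_shadow, fun z c hz hz0 hG hc => ?_, fun y hy => ?_⟩
  · have hz1 : ∀ i, 0 ≤ δ ^ 2 - z i * z i := fun i => by
      nlinarith [sq_abs (z i), hz i, abs_nonneg (z i)]
    have hW : ∀ a, 0 ≤ eval z (W' a) := by
      rintro (a | ((a | a) | (i | i)))
      · simpa [W'] using hz0
      · simp [W', W]
      · simp [W', W]; linarith [(abs_le.mp (hz 0)).2]
      · simpa [W', W] using hz1 i
      · simpa [W', W] using mul_nonneg hz0 (hz1 i)
    have := lifted_point (Φ := Φ) (Ψ := X 0 * G) (D := D) hW (by simpa using hG) hc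
    rw [show (fun i => eval z (Φ i)) = x + z 0 • (v + ∑ j, z (Fin.succ j) • B j) from
      funext (hΦ z)] at this
    exact this
  obtain ⟨L, hpos, hΨ, hyL⟩ := hy
  have hC : ∀ (c : ℝ) (P : MvPolynomial (Fin (k + 1)) ℝ), L (C c * P) = c * L P := fun c P => by
    rw [← smul_eq_C_mul, map_smul, smul_eq_mul]
  have hC1 : ∀ c : ℝ, L (C c) = c * L 1 := fun c => by simpa using hC c 1
  have hL : BoxPos D δ L := by
    refine ⟨fun h hh => by simpa [W', W] using hpos (Sum.inr (Sum.inl (Sum.inl ()))) h hh,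
      fun i h hh => ?_⟩
    have := hpos (Sum.inr (Sum.inr (Sum.inl i))) h hh
    simp only [W', W, Sum.elim_inr, Sum.elim_inl, sub_mul, map_sub, mul_assoc, hC] at this
    rw [mul_assoc (X i)]
    linarith
  set M := L.comp (LinearMap.mulLeft ℝ (X 0 : MvPolynomial (Fin (k + 1)) ℝ)) with hMdef
  have hMap : ∀ P, M P = L (X 0 * P) := fun P => rfl
  have hM : BoxPos D δ M := by
    refine ⟨fun h hh => by
      have := hpos (Sum.inl ()) h hh
      simp only [W', Sum.elim_inl, mul_assoc] at this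
      rwa [hMap], fun i h hh => ?_⟩
    have := hpos (Sum.inr (Sum.inr (Sum.inr i))) h hh
    simp only [W', W, Sum.elim_inr, mul_sub, sub_mul, map_sub, mul_assoc] at this
    simp only [hMap]
    rw [show X (R := ℝ) (0 : Fin (k + 1)) * (C (δ ^ 2) * (h * h)) =
      C (δ ^ 2) * (X 0 * (h * h)) by ring, hC] at this
    rw [mul_assoc (X i)]
    linarith
  have hda : ∀ h : MvPolynomial (Fin (k + 1)) ℝ, h.totalDegree ≤ D →
      M (h * h) ≤ δ * L (h * h) := by
    intro h hh
    have := hpos (Sum.inr (Sum.inl (Sum.inr ()))) h hh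
    simp only [W', W, Sum.elim_inr, Sum.elim_inl, sub_mul, map_sub, mul_assoc, hC] at this
    rw [hMap]; linarith
  have hT : 0 ≤ L 1 := by simpa using hL.1 1 (by simp)
  have hA : 0 ≤ L (X 0) := by simpa [hMap] using hM.1 1 (by simp)
  have hAT : L (X 0) ≤ δ * L 1 := by simpa [hMap] using hda 1 (by simp)
  have hU : ∀ i, |L (X 0 * X i)| ≤ δ * L (X 0) := fun i => by
    simpa [hMap] using coord_bound hM (by omega) hδ i
  have hyi : ∀ i, y i = x i * L 1 + v i * L (X 0) + ∑ j : Fin k, B j i * L (X 0 * X j.succ) := by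
    intro i
    rw [hyL i]
    simp only [Φ, mul_add, Finset.mul_sum, map_add, map_sum, hC1]
    rw [show X (R := ℝ) (0 : Fin (k + 1)) * C (v i) = C (v i) * X 0 by ring, hC]
    have hj : ∀ j : Fin k, L (X 0 * (C (B j i) * X j.succ)) = B j i * L (X 0 * X j.succ) :=
      fun j => by rw [mul_left_comm, hC]
    simp only [hj]
    ring
  rcases hT.lt_or_eq with hT | hT
  swap
  · left
    have hA0 : L (X 0) = 0 := le_antisymm (by rw [← hT, mul_zero] at hAT; exact hAT) hA
    have hU0 : ∀ i, L (X 0 * X i) = 0 := fun i => abs_nonpos_iff.mp (by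
      have := hU i; rw [hA0, mul_zero] at this; exact this)
    ext i
    rw [hyi i, ← hT, hA0]
    simp [hU0]
  right
  rcases hA.lt_or_eq with hA | hA
  swap
  · have hU0 : ∀ i, L (X 0 * X i) = 0 := fun i => abs_nonpos_iff.mp (by
      have := hU i; rw [← hA, mul_zero] at this; exact this)
    refine ⟨L 1, 0, hT, fun i => by simp [hδ.le], le_rfl, by simp, ?_⟩
    ext i
    rw [hyi i, ← hA]
    simp only [hU0, mul_zero, Finset.sum_const_zero]
    simp [mul_comm]
  set a := L (X 0) / L 1 with ha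
  set u : Fin k → ℝ := fun j => L (X 0 * X j.succ) / L (X 0) with hudef
  set z : Fin (k + 1) → ℝ := Fin.cons a u with hz
  have hz0 : z 0 = a := by simp [hz]
  have hzs : ∀ j : Fin k, z j.succ = u j := fun j => by simp [hz]
  have hapos : 0 < a := div_pos hA hT
  have hzb : ∀ i, |z i| ≤ δ := by
    intro i
    refine Fin.cases ?_ ?_ i
    · rw [hz0, abs_of_pos hapos]; exact (div_le_iff₀ hT).mpr hAT
    · intro j
      rw [hzs]
      simp only [u, abs_div, abs_of_pos hA]
      exact (div_le_iff₀ hA).mpr (hU _)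
  refine ⟨L 1, z, hT, hzb, by rw [hz0]; exact hapos.le, ?_, ?_⟩
  · have hgz : g / 2 < eval z (pderiv 0 G) := by
      refine hball ?_
      rw [dist_zero_right]
      exact lt_of_le_of_lt ((pi_norm_le_iff_of_nonneg hδ.le).mpr fun i => by
        simpa [Real.norm_eq_abs] using hzb i) (by linarith)
    let ℓ : Fin (k + 1) → MvPolynomial (Fin (k + 1)) ℝ := fun i => X i - C (z i)
    have hℓ : ∀ i, (ℓ i).totalDegree ≤ 1 := fun i => (totalDegree_sub _ _).trans (by simp)
    have hcq : ∀ w : Fin (k + 1) → ℝ,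
        ∑ i, (lam - if i = 0 then N else 0) * w i ^ 2 ≤ ∑ i, ∑ j, coeff 0 (H i j) * w i * w j := by
      intro w
      rw [← hq]
      simp only [sub_mul, ite_mul, zero_mul, Finset.sum_sub_distrib, Finset.sum_ite_eq',
        Finset.mem_univ, if_true, ← Finset.mul_sum]
      linarith [hl w]
    have h1 := quad_bound hM hδ hδ1 (boxSubst_spec hM hzb) ℓ hℓ H hD
      (fun i => lam - if i = 0 then N else 0) hcq hB
    rw [← hid z] at h1
    have h2 : -((N + lam) * δ * L (ℓ 0 * ℓ 0)) ≤ ∑ i : Fin (k + 1),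
        ((lam - if i = 0 then N else 0) - δ * Bd * Fintype.card (Fin (k + 1))) * M (ℓ i * ℓ i) := by
      rw [Fin.sum_univ_succ]
      have hm0 : 0 ≤ M (ℓ 0 * ℓ 0) := hM.1 _ ((hℓ 0).trans (by omega))
      have hrest : 0 ≤ ∑ j : Fin k, ((lam - if j.succ = 0 then N else 0) -
          δ * Bd * Fintype.card (Fin (k + 1))) * M (ℓ j.succ * ℓ j.succ) :=
        Finset.sum_nonneg fun j _ => mul_nonneg (by rw [if_neg (Fin.succ_ne_zero j)]; linarith)
          (hM.1 _ ((hℓ _).trans (by omega)))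
      have := mul_le_mul_of_nonneg_left (hda (ℓ 0) ((hℓ 0).trans (by omega)))
        (show (0 : ℝ) ≤ N + lam by linarith)
      simp only [if_true] at hrest ⊢
      nlinarith [mul_nonneg (sub_nonneg.mpr hδB) hm0, mul_nonneg hlam.le hm0]
    have hsplit : M (G - C (eval z G) - ∑ i, C (eval z (pderiv i G)) * (X i - C (z i))) +
        eval z (pderiv 0 G) * L (ℓ 0 * ℓ 0) = L (X 0 * G) - L (X 0) * eval z G := by
      simp only [hMap, mul_sub, Finset.mul_sum, map_sub, map_sum]
      have e1 : L (X 0 * C (eval z G)) = eval z G * L (X 0) := by rw [mul_comm (X 0), hC]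
      have e2 : ∀ i, L (X 0 * (C (eval z (pderiv i G)) * X i)) - L (X 0 * (C (eval z (pderiv i G)) *
          C (z i))) = eval z (pderiv i G) * (L (X 0 * X i) - z i * L (X 0)) := by
        intro i
        rw [mul_left_comm, hC, ← map_mul C, mul_comm (X 0) (C _), hC]
        ring
      rw [e1, Finset.sum_congr rfl fun i _ => e2 i, Fin.sum_univ_succ]
      have e3 : ∀ j : Fin k, L (X 0 * X j.succ) - z j.succ * L (X 0) = 0 := fun j => by
        rw [hzs]; simp only [u]; field_simp; ring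
      simp only [e3, mul_zero, Finset.sum_const_zero, add_zero, hz0]
      have e4 : L (ℓ 0 * ℓ 0) = L (X 0 * X 0) - a * L (X 0) := by
        have e5 : ℓ 0 * ℓ 0 = X 0 * X 0 - C (2 * a) * X 0 + C (a ^ 2) := by
          simp only [ℓ, hz0, map_mul, map_pow, map_ofNat]; ring
        rw [e5, map_add, map_sub, hC, hC1, ha]
        field_simp; ring
      rw [e4]
      ring
    have hℓ0 : 0 ≤ L (ℓ 0 * ℓ 0) := hL.1 _ ((hℓ 0).trans (by omega))
    have h3 : L (X 0) * eval z G ≤ 0 := by
      nlinarith [mul_le_mul_of_nonneg_right hδg hℓ0,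
        mul_le_mul_of_nonneg_right hgz.le hℓ0]
    rw [hz0, ha, div_mul_eq_mul_div]
    exact div_nonpos_of_nonpos_of_nonneg h3 hT.le
  · ext i
    rw [hyi i]
    simp only [Pi.smul_apply, Pi.add_apply, Finset.sum_apply, smul_eq_mul, hz0, hzs, u, ha, mul_add,
      Finset.mul_sum]
    rw [← add_assoc]
    congr 1
    · field_simp
    · exact Finset.sum_congr rfl fun j _ => by field_simp

end Vale.Agent.P256.Iso
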