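import Vale.Agent.P256.Iso.Cover
import Vale.Agent.P256.Iso.Piece

/-! Semidefinite covers of the boundary near smooth points and near isolated singular rays. -/

namespace Vale.Agent.P256.Iso

open MvPolynomial Topology Filter

variable {n d : ℕ} {p : MvPolynomial (Fin n) ℝ} {e x : Fin n → ℝ}

/-- The singular boundary points allowed in the main theorem. -/
def NodeAt (p : MvPolynomial (Fin n) ℝ) (e x : Fin n → ℝ) (m : ℕ) : Prop :=
  2 ≤ m ∧ (∀ k < m, taylor x p k = 0) ∧ eval e (taylor x p m) ≠ 0 ∧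
    ∀ v : Fin n → ℝ, v ∉ Submodule.span ℝ {x} → v ∈ hyperbolicityCone (taylor x p m) e →
      eval v (taylor x p m) = 0 →
        (∑ i, e i * eval v (pderiv i (taylor x p m))) ≠ 0 ∧ eval v (taylor x p (m + 1)) ≠ 0

lemma eval_aeval {k : ℕ} (φ : Fin n → MvPolynomial (Fin k) ℝ) (q : MvPolynomial (Fin n) ℝ)
    (u : Fin k → ℝ) : eval u (aeval φ q) = eval (fun i => eval u (φ i)) q := by
  induction q using MvPolynomial.induction_on with
  | C r => simp
  | add a b ha hb => rw [map_add, map_add, map_add, ha, hb]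
  | mul_X a i ha => rw [map_mul, map_mul, map_mul, aeval_X, ha, eval_X]

lemma mem_span_of_smul {x w : Fin n → ℝ} {t : ℝ} (ht : t ≠ 0) (h : x + t • w = 0) :
    w ∈ Submodule.span ℝ {x} := by
  refine Submodule.mem_span_singleton.mpr ⟨-t⁻¹, ?_⟩
  have h1 : t • w = -x := eq_neg_of_add_eq_zero_right h
  calc -t⁻¹ • x = t⁻¹ • (t • w) := by rw [h1, smul_neg, neg_smul]
    _ = w := by rw [smul_smul, inv_mul_cancel₀ ht, one_smul]

/-- Smooth boundary points have positive derivative towards `e`. -/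
lemma smooth_deriv_pos (hp : IsHyperbolicPoly p e) (hd : p.IsHomogeneous d)
    (hx : x ∈ hyperbolicityCone p e) (hx0 : eval x p = 0) (hs : ∃ i, eval x (pderiv i p) ≠ 0) :
    0 < (line p x e).coeff 1 := by
  refine lt_of_le_of_ne (line_coeff_nonneg hp hd hx 1) fun h0 => ?_
  obtain ⟨i, hi⟩ := hs
  have hlin : ∀ t : ℝ, (line p x (e + t • Pi.single i 1)).coeff 1 = t * eval x (pderiv i p) := by
    intro t
    rw [line_coeff_one] at h0
    rw [line_coeff_one]
    simp only [Pi.add_apply, Pi.smul_apply, smul_eq_mul, mul_add, Finset.sum_add_distrib, ← h0,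
      zero_add]
    rw [Finset.sum_eq_single i (fun j _ hj => by simp [hj]) (by simp)]
    simp [mul_comm]
  have hev : ∀ᶠ t in 𝓝 (0 : ℝ), 0 ≤ (line p x (e + t • Pi.single i 1)).coeff 1 := by
    have hc : Tendsto (fun t : ℝ => e + t • (Pi.single i 1 : Fin n → ℝ)) (𝓝 0) (𝓝 e) := by
      simpa using (show Continuous fun t : ℝ => e + t • (Pi.single i 1 : Fin n → ℝ) by
        fun_prop).tendsto 0
    refine (hc.eventually (cone_eventually hp hd (cone_base hp hd) hp.2.1.ne')).mono fun t ht => ?_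
    set P := line p x (e + t • Pi.single i 1) with hP
    have h1 : ∀ η : ℝ, 0 < η → 0 ≤ P.divX.eval η := by
      intro η hη
      have h2 := eval_nonneg_of_mem hp hd (cone_add' hp hd hx (cone_smul hd hη ht))
      rw [← line_eval, eval_divX _ (by rw [line_coeff_zero, hx0])] at h2
      exact nonneg_of_mul_nonneg_right h2 hη
    have h3 : 0 ≤ P.divX.eval 0 := ge_of_tendsto (P.divX.continuous.tendsto 0 |>.mono_left
      (nhdsWithin_le_nhds (s := Set.Ioi (0 : ℝ)))) (eventually_nhdsWithin_of_forall fun η hη => h1 η hη)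
    rwa [← Polynomial.coeff_zero_eq_eval_zero, Polynomial.coeff_divX] at h3
  obtain ⟨ε, hε, hball⟩ := Metric.eventually_nhds_iff.mp hev
  have hp1 := hball (y := ε / 2) (by rw [Real.dist_eq, sub_zero, abs_of_pos (half_pos hε)]; linarith)
  have hm1 := hball (y := -(ε / 2))
    (by rw [Real.dist_eq, sub_zero, abs_neg, abs_of_pos (half_pos hε)]; linarith)
  rw [hlin] at hp1 hm1
  refine hi ?_
  nlinarith

/-- Nonnegativity near a smooth boundary point means membership. -/
lemma mem_near_smooth (hp : IsHyperbolicPoly p e) (hd : p.IsHomogeneous d)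
    (hx : x ∈ hyperbolicityCone p e) (he : 0 < (line p x e).coeff 1) :
    ∀ᶠ y in 𝓝 x, 0 ≤ eval y p → y ∈ hyperbolicityCone p e := by
  let h : (Fin n → ℝ) × ℝ → ℝ := fun z =>
    ∑ i ∈ Finset.range (d + 1), (line p z.1 e).coeff (i + 1) * z.2 ^ i
  have hh : ∀ y s, eval (y + s • e) p = eval y p + s * h (y, s) := by
    intro y s
    rw [← line_eval, Polynomial.eval_eq_sum_range' (n := d + 2)
      (by have := line_natDegree_le p y e hd.totalDegree_le; omega),
      Finset.sum_range_succ', line_coeff_zero, Finset.mul_sum, pow_zero, mul_one, add_comm]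
    exact congrArg _ (Finset.sum_congr rfl fun i _ => by ring)
  have hhc : Continuous h := continuous_finsetSum _ fun i _ =>
    ((continuous_line_coeff p (i + 1)).comp (continuous_fst.prodMk continuous_const)).mul
      (continuous_snd.pow i)
  have h00 : h (x, 0) = (line p x e).coeff 1 := by
    simp only [h]
    rw [Finset.sum_eq_single 0]
    · simp
    · intro i _ hi; simp [zero_pow hi]
    · simp
  obtain ⟨ε, hε, hball⟩ := Metric.eventually_nhds_iff.mp
    (hhc.continuousAt.eventually_const_lt (show 0 < h (x, 0) by rw [h00]; exact he))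
  have hT := half_pos hε
  have hc : Tendsto (fun y => y + (ε / 2) • e) (𝓝 x) (𝓝 (x + (ε / 2) • e)) :=
    (show Continuous fun y => y + (ε / 2) • e by fun_prop).tendsto x
  filter_upwards [hc.eventually (cone_eventually hp hd (add_smul_mem hp hd hx hT)
    (eval_pos_of_strict hp hd hx hT).ne'), Metric.ball_mem_nhds x hε] with y hy hyε hy0
  refine mem_of_segment hp hd hy fun s hs hsT => ?_
  rw [hh]
  refine (add_pos_of_nonneg_of_pos hy0 (mul_pos hs (hball ?_))).ne'
  rw [Prod.dist_eq, max_lt_iff]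
  refine ⟨hyε, ?_⟩
  rw [Real.dist_eq, sub_zero, abs_of_pos hs]
  linarith

lemma deriv_sum (q : MvPolynomial (Fin n) ℝ) (v e : Fin n → ℝ) :
    ∑ i, e i * eval v (pderiv i q) = (line q v e).coeff 1 := by
  rw [line_coeff_one]
  exact Finset.sum_congr rfl fun i _ => mul_comm _ _

variable (hp : IsHyperbolicPoly p e) (hd : p.IsHomogeneous d)
  (hpt : ∀ z ∈ hyperbolicityCone p e, -z ∈ hyperbolicityCone p e → z = 0)
  (hgood : ∀ z ∈ hyperbolicityCone p e, z ≠ 0 → eval z p = 0 →
    (∃ i, eval z (pderiv i p) ≠ 0) ∨ ∃ m, NodeAt p e z m)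
include hp hd hpt hgood

/-- No line through a smooth boundary point lies in the zero set. -/
lemma no_line (hx : x ∈ hyperbolicityCone p e) (hxne : x ≠ 0)
    (he : 0 < (line p x e).coeff 1) {w : Fin n → ℝ} (hw : w ∉ Submodule.span ℝ {x})
    (hline : ∀ t : ℝ, eval (x + t • w) p = 0) : False := by
  have hgoodline : ∀ t : ℝ, x + t • w ∈ hyperbolicityCone p e →
      0 < (line p (x + t • w) e).coeff 1 := by
    intro t ht
    by_cases ht0 : t = 0
    · simpa [ht0] using he
    set y := x + t • w with hy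
    rcases hgood y ht (fun h => hw (mem_span_of_smul ht0 h)) (hline t) with hs | ⟨m, hm⟩
    · exact smooth_deriv_pos hp hd ht (hline t) hs
    exfalso
    obtain ⟨-, hlow, hQe, hnode⟩ := hm
    set v := (-t) • w with hv
    have hyv : y + (1 : ℝ) • v = x := by rw [one_smul, hy, hv, neg_smul, add_neg_cancel_right]
    have hvT := mem_tangent hp hd ht hlow hQe one_pos (v := v) (by rw [hyv]; exact hx)
    have hQ : ∀ k, eval v (taylor y p k) = 0 := by
      intro k
      rw [← line_coeff_taylor, show line p y v = 0 from Polynomial.funext fun r => ?_,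
        Polynomial.coeff_zero]
      rw [line_eval, Polynomial.eval_zero, hy, hv, add_assoc, smul_smul, ← add_smul, hline]
    have hvy : v ∉ Submodule.span ℝ {y} := by
      rw [Submodule.mem_span_singleton]
      rintro ⟨c, hc⟩
      rw [hy, hv] at hc
      by_cases h1 : c = 0
      · rw [h1, zero_smul] at hc
        exact hw (by rw [(smul_eq_zero.mp hc.symm).resolve_left (neg_ne_zero.mpr ht0)]; exact zero_mem _)
      have h3 : c • x = (-t - c * t) • w := by
        rw [sub_smul, ← hc, smul_add, smul_smul]; abel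
      by_cases h2 : -t - c * t = 0
      · rw [h2, zero_smul] at h3
        exact hxne ((smul_eq_zero.mp h3).resolve_left h1)
      · refine hw (Submodule.mem_span_singleton.mpr ⟨(-t - c * t)⁻¹ * c, ?_⟩)
        rw [mul_smul, h3, smul_smul, inv_mul_cancel₀ h2, one_smul]
    exact (hnode v hvy hvT (hQ m)).2 (hQ (m + 1))
  obtain ⟨h1, h2⟩ := mem_of_line_subset hp hd (line_subset_cone hp hd hx hline hgoodline)
  exact hw (by rw [hpt w h1 h2]; exact zero_mem _)

theorem smooth_cover (hx : x ∈ hyperbolicityCone p e) (hxne : x ≠ 0) (hx0 : eval x p = 0)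
    (hs : ∃ i, eval x (pderiv i p) ≠ 0) :
    ∃ U ∈ 𝓝 x, Coverable p e {y | y ∈ U ∧ y ∈ hyperbolicityCone p e ∧ eval y p = 0} := by
  have he := smooth_deriv_pos hp hd hx hx0 hs
  obtain ⟨ℓ, hℓ⟩ := exists_functional hxne
  obtain ⟨k, B, co, hBW, hBinj, hBco⟩ := exists_param (LinearMap.ker ℓ)
  let F : MvPolynomial (Fin k) ℝ := aeval (aff x B) p
  have hF : ∀ u, eval u F = eval (x + ∑ j, u j • B j) p := fun u => by
    rw [eval_aeval]
    exact congrArg (fun f => eval f p) (funext (eval_aff x B u))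
  have hFline : ∀ u, line F 0 u = line p x (∑ j, u j • B j) := fun u =>
    Polynomial.funext fun t => by
      rw [line_eval, line_eval, hF, zero_add]
      simp [Finset.smul_sum, smul_smul]
  have hspan : ∀ u : Fin k → ℝ, u ≠ 0 → ∑ j, u j • B j ∉ Submodule.span ℝ {x} := by
    intro u hu h
    obtain ⟨c, hc⟩ := Submodule.mem_span_singleton.mp h
    have h1 : ℓ (c • x) = 0 := by rw [hc]; exact LinearMap.mem_ker.mp (hBW u)
    rw [map_smul, hℓ, smul_eq_mul, mul_one] at h1
    exact hu (hBinj u (by rw [← hc, h1, zero_smul]))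
  obtain ⟨N, -, lam, hlam, hl⟩ := exists_shift (fun u => -(line F 0 u).coeff 2)
    (fun u => (line F 0 u).coeff 1 ^ 2) (continuous_coeff_two F).neg
    ((by simp only [line_coeff_taylor]; exact continuous_eval _ :
      Continuous fun u => (line F 0 u).coeff 1).pow 2)
    (fun t u => by rw [coeff_two_smul]; ring)
    (fun t u => by
      simp only [line_coeff_taylor]
      rw [eval_smul_hom (taylor_hom _ _ _)]; ring)
    (fun _ => sq_nonneg _) (fun u hu h0 => by
      rw [hFline] at h0 ⊢
      have h := strict_line hp hd hx hx0 he (pow_eq_zero_iff two_ne_zero |>.mp h0)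
      refine neg_pos.mpr (lt_of_le_of_ne h.1 fun h2 => ?_)
      exact no_line hp hd hpt hgood hx hxne he (hspan u hu) (h.2 h2).1)
  let G : MvPolynomial (Fin k) ℝ := -F + C N * (F * F)
  have hG : ∀ u, eval u G = -eval u F + N * (eval u F * eval u F) := fun u => by simp [G]
  have hpd : ∀ u : Fin k → ℝ, u ≠ 0 → 0 < (line G 0 u).coeff 2 := by
    intro u hu
    have h0 : (line F 0 u).coeff 0 = 0 := by rw [hFline, line_coeff_zero, hx0]
    have h2 : (line G 0 u).coeff 2 =
        -(line F 0 u).coeff 2 + N * (line F 0 u).coeff 1 ^ 2 := by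
      have hadd : line G 0 u = -line F 0 u + Polynomial.C N * (line F 0 u * line F 0 u) := by
        simp [line, G]
      rw [hadd, Polynomial.coeff_add, Polynomial.coeff_neg, Polynomial.coeff_C_mul,
        Polynomial.coeff_mul, Finset.Nat.sum_antidiagonal_eq_sum_range_succ
          (fun i j => (line F 0 u).coeff i * (line F 0 u).coeff j)]
      simp [Finset.sum_range_succ, h0, pow_two]
    rw [h2]
    refine lt_of_lt_of_le (mul_pos hlam ?_) (hl u)
    obtain ⟨j, hj⟩ : ∃ j, u j ≠ 0 := Function.ne_iff.mp hu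
    exact Finset.sum_pos' (fun i _ => sq_nonneg _) ⟨j, Finset.mem_univ _, by positivity⟩
  obtain ⟨δ₀, hδ₀, hpiece⟩ := smooth_piece x B G hpd
  have hF0 : eval (0 : Fin k → ℝ) F = 0 := by rw [hF]; simp [hx0]
  have hnear : ∀ᶠ u in 𝓝 (0 : Fin k → ℝ), N * eval u F < 1 ∧
      (0 ≤ eval (x + ∑ j, u j • B j) p → x + ∑ j, u j • B j ∈ hyperbolicityCone p e) := by
    refine (((continuous_const.mul (continuous_eval F)).continuousAt).eventually_lt_const
      (show N * eval (0 : Fin k → ℝ) F < 1 by rw [hF0]; simp)).and ?_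
    have hc : Tendsto (fun u : Fin k → ℝ => x + ∑ j, u j • B j) (𝓝 0) (𝓝 x) := by
      simpa using (show Continuous fun u : Fin k → ℝ => x + ∑ j, u j • B j by fun_prop).tendsto 0
    exact hc.eventually (mem_near_smooth hp hd hx he)
  obtain ⟨ρ, hρ, hball⟩ := Metric.eventually_nhds_iff.mp hnear
  set δ := min δ₀ (ρ / 2) with hδdef
  have hδ : 0 < δ := lt_min hδ₀ (half_pos hρ)
  obtain ⟨S, hS, hin, hout⟩ := hpiece δ hδ (min_le_left _ _)
  have hδρ : ∀ u : Fin k → ℝ, (∀ i, |u i| ≤ δ) → dist u 0 < ρ := fun u hu => by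
    rw [dist_zero_right]
    have : δ ≤ ρ / 2 := min_le_right _ _
    exact lt_of_le_of_lt ((pi_norm_le_iff_of_nonneg hδ.le).mpr fun i => by
      simpa [Real.norm_eq_abs] using hu i) (by linarith)
  have hG0 : eval (0 : Fin k → ℝ) G ≤ 0 := by rw [hG, hF0]; simp
  have h0S : (0 : Fin n → ℝ) ∈ S := by
    simpa using hin 0 0 (fun i => by simp [hδ.le]) hG0 le_rfl
  refine ⟨{y | 0 < ℓ y ∧ ∀ j, |co ((ℓ y)⁻¹ • y - x) j| < δ}, ?_, S, hS, ?_, h0S, ?_, ?_⟩
  · refine (Filter.Eventually.and ?_ (eventually_all.mpr fun j => ?_) :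
      ∀ᶠ y in 𝓝 x, 0 < ℓ y ∧ ∀ j, |co ((ℓ y)⁻¹ • y - x) j| < δ)
    · exact ℓ.continuous_of_finiteDimensional.continuousAt.eventually_const_lt (by rw [hℓ]; norm_num)
    · have hc : ContinuousAt (fun y => |co ((ℓ y)⁻¹ • y - x) j|) x :=
        ((continuous_apply j).comp co.continuous_of_finiteDimensional).abs.continuousAt.comp
          (((ℓ.continuous_of_finiteDimensional.continuousAt.inv₀ (by rw [hℓ]; norm_num)).smul
            continuousAt_id).sub continuousAt_const)
      exact hc.eventually_lt_const (by simpa [hℓ] using hδ)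
  · intro y hy
    rcases hout y hy with rfl | ⟨T, u, hT, hu, hGu, rfl⟩
    · exact cone_zero hp hd
    obtain ⟨hN, hmem⟩ := hball (hδρ u hu)
    refine cone_smul hd hT (hmem ?_)
    rw [← hF]
    rw [hG] at hGu
    nlinarith
  · intro c hc y hy
    rcases hout y hy with rfl | ⟨T, u, hT, hu, hGu, rfl⟩
    · rwa [smul_zero]
    · rw [smul_smul]; exact hin u _ hu hGu (mul_nonneg hc hT.le)
  · rintro y ⟨⟨hℓy, hyu⟩, -, hy0⟩
    set u := co ((ℓ y)⁻¹ • y - x) with hu
    have hker : (ℓ y)⁻¹ • y - x ∈ LinearMap.ker ℓ := by simp [LinearMap.mem_ker, hℓ, hℓy.ne']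
    have hxu : x + ∑ j, u j • B j = (ℓ y)⁻¹ • y := by rw [hu, hBco _ hker, add_sub_cancel]
    have hFu : eval u F = 0 := by rw [hF, hxu, eval_smul_hom hd, hy0, mul_zero]
    have := hin u (ℓ y) (fun j => (hyu j).le) (by simp [hG, hFu]) hℓy.le
    rwa [hxu, smul_smul, mul_inv_cancel₀ hℓy.ne', one_smul] at this

end Vale.Agent.P256.Iso
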