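import Vale.Agent.P256.Iso.Cone

/-! Semidefinite lifts by truncated moment functionals. -/

namespace Vale.Agent.P256.Iso

open MvPolynomial Matrix
open scoped BigOperators MatrixOrder

variable {k n : ℕ}

/-- The functional is nonnegative on `w * h * h` for the weights `w` and `h` of degree `≤ D`. -/
def Pos {r : Type} (W : r → MvPolynomial (Fin k) ℝ) (D : ℕ)
    (L : MvPolynomial (Fin k) ℝ →ₗ[ℝ] ℝ) : Prop :=
  ∀ a, ∀ h : MvPolynomial (Fin k) ℝ, h.totalDegree ≤ D → 0 ≤ L (W a * h * h)

/-- The image of the lift with coordinates `Φ` and constraint `Ψ`. -/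
def lifted {r : Type} (W : r → MvPolynomial (Fin k) ℝ) (D : ℕ)
    (Φ : Fin n → MvPolynomial (Fin k) ℝ) (Ψ : MvPolynomial (Fin k) ℝ) : Set (Fin n → ℝ) :=
  {y | ∃ L : MvPolynomial (Fin k) ℝ →ₗ[ℝ] ℝ, Pos W D L ∧ L Ψ ≤ 0 ∧ ∀ i, y i = L (Φ i)}

variable {r : Type} {W : r → MvPolynomial (Fin k) ℝ} {D : ℕ}
  {Φ : Fin n → MvPolynomial (Fin k) ℝ} {Ψ : MvPolynomial (Fin k) ℝ}

lemma lifted_point {u : Fin k → ℝ} (hW : ∀ a, 0 ≤ eval u (W a)) (hΨ : eval u Ψ ≤ 0) {c : ℝ}
    (hc : 0 ≤ c) : c • (fun i => eval u (Φ i)) ∈ lifted W D Φ Ψ := by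
  refine ⟨c • (MvPolynomial.aeval u).toLinearMap, fun a h _ => ?_, ?_, fun i => ?_⟩
  · simp only [LinearMap.smul_apply, AlgHom.toLinearMap_apply, map_mul, smul_eq_mul, aeval_eq_eval,
      mul_assoc]
    exact mul_nonneg hc (mul_nonneg (hW a) (mul_self_nonneg _))
  · simp only [LinearMap.smul_apply, AlgHom.toLinearMap_apply, smul_eq_mul, aeval_eq_eval]
    exact mul_nonpos_of_nonneg_of_nonpos hc hΨ
  · simp [aeval_eq_eval]

lemma lifted_add {y z : Fin n → ℝ} (hy : y ∈ lifted W D Φ Ψ) (hz : z ∈ lifted W D Φ Ψ) :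
    y + z ∈ lifted W D Φ Ψ := by
  obtain ⟨L, h1, h2, h3⟩ := hy
  obtain ⟨L', g1, g2, g3⟩ := hz
  exact ⟨L + L', fun a h hh => add_nonneg (h1 a h hh) (g1 a h hh), add_nonpos h2 g2,
    fun i => by simp [h3 i, g3 i]⟩

/-- Exponent vectors with entries at most `D`. -/
noncomputable def expo (c : Fin k → Fin (D + 1)) : Fin k →₀ ℕ :=
  Finsupp.equivFunOnFinite.symm fun i => (c i : ℕ)

lemma sum_expo {h : MvPolynomial (Fin k) ℝ} (hh : h.totalDegree ≤ D) :
    h = ∑ c : Fin k → Fin (D + 1), monomial (expo c) (coeff (expo c) h) := by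
  classical
  ext s
  rw [coeff_sum]
  simp only [coeff_monomial]
  by_cases hs : ∀ i, s i ≤ D
  · rw [Finset.sum_eq_single fun i => ⟨s i, Nat.lt_succ_of_le (hs i)⟩]
    · have : expo (fun i => (⟨s i, Nat.lt_succ_of_le (hs i)⟩ : Fin (D + 1))) = s := by
        ext i; simp [expo]
      simp [this]
    · intro c _ hc
      rw [if_neg]
      intro hcs
      refine hc (funext fun i => Fin.ext ?_)
      simp [← hcs, expo]
    · simp
  · rw [Finset.sum_eq_zero, notMem_support_iff.mp]
    · intro hsupp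
      refine hs fun i => ?_
      refine le_trans ?_ ((le_totalDegree hsupp).trans hh)
      by_cases hi : i ∈ s.support
      · exact Finset.single_le_sum (f := fun j => s j) (fun j _ => Nat.zero_le _) hi
      · simp [Finsupp.notMem_support_iff.mp hi]
    · intro c _
      rw [if_neg]
      intro hcs
      apply hs
      intro i
      simp [← hcs, expo, Nat.lt_succ_iff.mp (c i).2]

/-- The functional with prescribed values on finitely many monomials. -/
noncomputable def functional (S : Finset (Fin k →₀ ℕ)) (u : S → ℝ) :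
    MvPolynomial (Fin k) ℝ →ₗ[ℝ] ℝ where
  toFun P := ∑ s : S, u s * coeff s.1 P
  map_add' P Q := by simp [mul_add, Finset.sum_add_distrib]
  map_smul' c P := by simp [Finset.mul_sum, mul_left_comm]

lemma functional_eq (S : Finset (Fin k →₀ ℕ)) (L : MvPolynomial (Fin k) ℝ →ₗ[ℝ] ℝ)
    {P : MvPolynomial (Fin k) ℝ} (hP : P.support ⊆ S) :
    functional S (fun s => L (monomial s.1 1)) P = L P := by
  change ∑ s : S, L (monomial s.1 1) * coeff s.1 P = L P
  rw [Finset.sum_coe_sort S (fun s => L (monomial s 1) * coeff s P)]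
  conv_rhs => rw [P.as_sum, map_sum]
  refine (Finset.sum_subset hP ?_).symm.trans ?_
  · intro s _ hs; simp [notMem_support_iff.mp hs]
  · refine Finset.sum_congr rfl fun s _ => ?_
    rw [mul_comm, ← smul_eq_mul, ← map_smul, smul_monomial, smul_eq_mul, mul_one]

theorem lifted_shadow [Fintype r] : IsSpectrahedralShadow (lifted W D Φ Ψ) := by
  classical
  let mo : (Fin k → Fin (D + 1)) → MvPolynomial (Fin k) ℝ := fun c => monomial (expo c) 1
  let good : Finset (Fin k → Fin (D + 1)) := Finset.univ.filter fun c => (mo c).totalDegree ≤ D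
  let S : Finset (Fin k →₀ ℕ) := Ψ.support ∪ (Finset.univ.biUnion fun i => (Φ i).support) ∪
    (Finset.univ.biUnion fun a => Finset.univ.biUnion fun c => Finset.univ.biUnion fun c' =>
      (W a * mo c * mo c').support)
  let blk : (S → ℝ) → r → Matrix good good ℝ :=
    fun u a => Matrix.of fun c c' => functional S u (W a * mo c.1 * mo c'.1)
  let diag : (Fin n → ℝ) → (S → ℝ) → (Fin n ⊕ Fin n) ⊕ Unit → ℝ := fun x u => Sum.elim
    (Sum.elim (fun i => x i - functional S u (Φ i)) (fun i => functional S u (Φ i) - x i))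
    (fun _ => - functional S u Ψ)
  have hlin : ∀ P, IsLinearMap ℝ fun u : S → ℝ => functional S u P := fun P =>
    ⟨fun u v => by simp [functional, add_mul, Finset.sum_add_distrib],
     fun c u => by simp [functional, Finset.mul_sum, mul_assoc]⟩
  refine shadow_of_linearMap (ι := S) (κ := (good × r) ⊕ ((Fin n ⊕ Fin n) ⊕ Unit))
    { toFun := fun q => fromBlocks (blockDiagonal (blk q.2)) 0 0 (diagonal (diag q.1 q.2))
      map_add' := ?_
      map_smul' := ?_ } ?_ ?_
  · intro q q'
    ext (⟨c, a⟩ | ((i | i) | i)) (⟨c', a'⟩ | ((j | j) | j)) <;>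
      simp [blk, diag, blockDiagonal_apply, diagonal_apply, (hlin _).map_add] <;>
      (try split_ifs) <;> (try simp) <;> (try ring)
  · intro t q
    ext (⟨c, a⟩ | ((i | i) | i)) (⟨c', a'⟩ | ((j | j) | j)) <;>
      simp [blk, diag, blockDiagonal_apply, diagonal_apply, (hlin _).map_smul, mul_sub]
  · intro q
    refine IsSymm.fromBlocks ?_ (by simp) (isSymm_diagonal _)
    ext ⟨c, a⟩ ⟨c', a'⟩
    simp only [Matrix.transpose_apply, blockDiagonal_apply, blk]
    by_cases h : a = a'
    · subst h; simp [mul_comm, mul_left_comm]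
    · rw [if_neg h, if_neg (Ne.symm h)]
  intro x
  simp only [LinearMap.coe_mk, AddHom.coe_mk, posSemidef_fromBlocks_iff,
    posSemidef_blockDiagonal_iff, posSemidef_diagonal_iff]
  have hblk : ∀ (u : S → ℝ) (a : r) (v : good → ℝ), v ⬝ᵥ (blk u a *ᵥ v) =
      functional S u (W a * (∑ c : good, v c • mo c.1) * (∑ c : good, v c • mo c.1)) := by
    intro u a v
    simp only [Finset.mul_sum, Finset.sum_mul, map_sum, dotProduct, mulVec, blk, Matrix.of_apply,
      mul_smul_comm, smul_mul_assoc, map_smul, smul_eq_mul]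
    refine Finset.sum_congr rfl fun c _ => Finset.sum_congr rfl fun c' _ => ?_
    have hcomm : W a * mo c.1 * mo c'.1 = W a * mo c'.1 * mo c.1 := by ring
    rw [hcomm]
    ring
  constructor
  · rintro ⟨L, hpos, hΨ, hx⟩
    refine ⟨fun s => L (monomial s.1 1), fun a => ?_, ?_⟩
    · refine PosSemidef.of_dotProduct_mulVec_nonneg ?_ fun v => ?_
      · ext c c'
        simp [blk, mul_comm, mul_left_comm]
      · rw [star_trivial, hblk]
        have hdeg : (∑ c : good, v c • mo c.1).totalDegree ≤ D :=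
          (totalDegree_finsetSum _ _).trans (Finset.sup_le fun c _ =>
            (totalDegree_smul_le _ _).trans (Finset.mem_filter.mp c.2).2)
        refine le_of_le_of_eq (hpos a _ hdeg) ?_
        symm
        simp only [Finset.mul_sum, Finset.sum_mul, map_sum, mul_smul_comm, smul_mul_assoc, map_smul,
          smul_eq_mul]
        try simp only [Finset.mul_sum]
        refine Finset.sum_congr rfl fun c _ => Finset.sum_congr rfl fun c' _ => ?_
        rw [functional_eq S L]
        intro s hs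
        simp only [S, Finset.mem_union, Finset.mem_biUnion, Finset.mem_univ, true_and]
        exact Or.inr ⟨a, _, _, hs⟩
    · have hΦS : ∀ i, functional S (fun s => L (monomial s.1 1)) (Φ i) = L (Φ i) := fun i =>
        functional_eq S L fun s hs => by
          simp only [S, Finset.mem_union, Finset.mem_biUnion, Finset.mem_univ, true_and]
          exact Or.inl (Or.inr ⟨i, hs⟩)
      have hΨS : functional S (fun s => L (monomial s.1 1)) Ψ = L Ψ :=
        functional_eq S L fun s hs => by simp [S, hs]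
      rintro ((i | i) | i)
      · simp [diag, hΦS, hx]
      · simp [diag, hΦS, hx]
      · simp [diag, hΨS, hΨ]
  · rintro ⟨u, hb, hd⟩
    refine ⟨functional S u, fun a h hh => ?_, ?_, fun i => ?_⟩
    · have hsum : h = ∑ c : good, coeff (expo c.1) h • mo c.1 := by
        conv_lhs => rw [sum_expo hh]
        rw [Finset.sum_coe_sort good (fun c => coeff (expo c) h • mo c)]
        symm
        rw [Finset.sum_filter]
        refine Finset.sum_congr rfl fun c _ => ?_
        split_ifs with hc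
        · rw [smul_monomial, smul_eq_mul, mul_one]
        · have h0 : coeff (expo c) h = 0 := by
            by_contra hne
            refine hc ((le_of_eq (totalDegree_monomial _ one_ne_zero)).trans ?_)
            exact (le_totalDegree (mem_support_iff.mpr hne)).trans hh
          simp [h0]
      rw [hsum, ← hblk]
      simpa using (hb a).dotProduct_mulVec_nonneg fun c : good => coeff (expo c.1) h
    · simpa [diag] using hd (Sum.inr ())
    · have h1 := hd (Sum.inl (Sum.inl i))
      have h2 := hd (Sum.inl (Sum.inr i))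
      simp only [diag, Sum.elim_inl, Sum.elim_inr] at h1 h2
      linarith

section bounds

variable {σ : Type*} {δ : ℝ} {M : MvPolynomial (Fin k) ℝ →ₗ[ℝ] ℝ}

/-- `M` is nonnegative on squares and sees every coordinate in `[-δ, δ]`, up to degree `D`. -/
def BoxPos (D : ℕ) (δ : ℝ) (M : MvPolynomial (Fin k) ℝ →ₗ[ℝ] ℝ) : Prop :=
  (∀ h : MvPolynomial (Fin k) ℝ, h.totalDegree ≤ D → 0 ≤ M (h * h)) ∧
    ∀ i, ∀ h : MvPolynomial (Fin k) ℝ, h.totalDegree ≤ D →
      M (X i * X i * (h * h)) ≤ δ ^ 2 * M (h * h)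

/-- A substitution by affine polynomials that stay in `[-δ, δ]` for `M`. -/
def BoxSubst (D : ℕ) (δ : ℝ) (M : MvPolynomial (Fin k) ℝ →ₗ[ℝ] ℝ)
    (φ : σ → MvPolynomial (Fin k) ℝ) : Prop :=
  ∀ i, (φ i).totalDegree ≤ 1 ∧ ∀ h : MvPolynomial (Fin k) ℝ, h.totalDegree ≤ D →
    M (φ i * φ i * (h * h)) ≤ δ ^ 2 * M (h * h)

lemma mono_sq_bound {φ : σ → MvPolynomial (Fin k) ℝ} (hφ : BoxSubst D δ M φ) :
    ∀ (N : ℕ) (s : σ →₀ ℕ), s.degree = N → ∀ h : MvPolynomial (Fin k) ℝ,
      h.totalDegree + N ≤ D →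
        (aeval φ (monomial s (1 : ℝ))).totalDegree ≤ N ∧
          M (aeval φ (monomial s (1 : ℝ)) * aeval φ (monomial s (1 : ℝ)) * (h * h)) ≤
            δ ^ (2 * N) * M (h * h) := by
  classical
  intro N
  induction N with
  | zero =>
    intro s hs h _
    rw [(Finsupp.degree_eq_zero_iff s).mp hs]
    simp
  | succ N ih =>
    intro s hs h hh
    have hne : s ≠ 0 := fun h0 => by simp [h0] at hs
    obtain ⟨i, hi⟩ := Finsupp.support_nonempty_iff.mpr hne
    have hle : Finsupp.single i 1 ≤ s := by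
      intro j
      by_cases hj : i = j
      · subst hj
        have := Finsupp.mem_support_iff.mp hi
        simp only [Finsupp.single_eq_same]; omega
      · simp [Finsupp.single_eq_of_ne (Ne.symm hj)]
    set s' := s - Finsupp.single i 1
    have hs' : s = Finsupp.single i 1 + s' := (add_tsub_cancel_of_le hle).symm
    have hN : s'.degree = N := by
      rw [hs', map_add, Finsupp.degree_single] at hs
      omega
    have hmon : aeval φ (monomial s (1 : ℝ)) = φ i * aeval φ (monomial s' (1 : ℝ)) := by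
      rw [hs', show monomial (Finsupp.single i 1 + s') (1 : ℝ) =
        monomial (Finsupp.single i 1) 1 * monomial s' 1 by rw [monomial_mul, mul_one], map_mul,
        ← X, aeval_X]
    obtain ⟨hd', hb⟩ := ih s' hN h (by omega)
    rw [hmon]
    refine ⟨(totalDegree_mul _ _).trans (by have := (hφ i).1; omega), ?_⟩
    calc M (φ i * aeval φ (monomial s' (1 : ℝ)) * (φ i * aeval φ (monomial s' (1 : ℝ))) * (h * h))
        = M (φ i * φ i * ((aeval φ (monomial s' (1 : ℝ)) * h) * (aeval φ (monomial s' (1 : ℝ)) * h))) := by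
          ring_nf
      _ ≤ δ ^ 2 * M ((aeval φ (monomial s' (1 : ℝ)) * h) * (aeval φ (monomial s' (1 : ℝ)) * h)) :=
          (hφ i).2 _ ((totalDegree_mul _ _).trans
            (le_trans (Nat.add_le_add_right hd' _) (by omega)))
      _ = δ ^ 2 * M (aeval φ (monomial s' (1 : ℝ)) * aeval φ (monomial s' (1 : ℝ)) * (h * h)) := by ring_nf
      _ ≤ δ ^ 2 * (δ ^ (2 * N) * M (h * h)) := mul_le_mul_of_nonneg_left hb (sq_nonneg δ)
      _ = δ ^ (2 * (N + 1)) * M (h * h) := by ring

lemma mono_bound (hM : BoxPos D δ M) (hδ : 0 < δ) {φ : σ → MvPolynomial (Fin k) ℝ}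
    (hφ : BoxSubst D δ M φ) (s : σ →₀ ℕ) (h : MvPolynomial (Fin k) ℝ)
    (hh : h.totalDegree + s.degree ≤ D) :
    |M (aeval φ (monomial s (1 : ℝ)) * (h * h))| ≤ δ ^ s.degree * M (h * h) := by
  obtain ⟨hd, hb⟩ := mono_sq_bound hφ _ s rfl h hh
  set m := aeval φ (monomial s (1 : ℝ))
  set B := δ ^ s.degree with hB
  have hB0 : 0 < B := pow_pos hδ _
  have key : ∀ t : ℝ, 0 ≤ M (m * m * (h * h)) + 2 * t * M (m * (h * h)) + t ^ 2 * M (h * h) := by
    intro t
    have h1 := hM.1 ((m + C t) * h) ((totalDegree_mul _ _).trans (by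
      have h2 := totalDegree_add m (C t : MvPolynomial (Fin k) ℝ)
      rw [totalDegree_C] at h2
      simp at h2
      omega))
    have e1 : (m + C t) * h * ((m + C t) * h) = m * m * (h * h) + (2 * t) • (m * (h * h)) +
        (t ^ 2) • (h * h) := by
      simp only [smul_eq_C_mul, map_mul, map_pow, map_ofNat]; ring
    rw [e1, map_add, map_add, map_smul, map_smul] at h1
    simpa using h1
  have h1 := key B
  have h2 := key (-B)
  rw [show δ ^ (2 * s.degree) = B * B by rw [hB]; ring] at hb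
  rw [abs_le]
  constructor <;> nlinarith

lemma poly_bound (hM : BoxPos D δ M) (hδ : 0 < δ) (hδ1 : δ ≤ 1) {φ : σ → MvPolynomial (Fin k) ℝ}
    (hφ : BoxSubst D δ M φ) (P : MvPolynomial σ ℝ) (h : MvPolynomial (Fin k) ℝ)
    (hh : h.totalDegree + P.totalDegree ≤ D) :
    |M (aeval φ P * (h * h)) - coeff 0 P * M (h * h)| ≤
      δ * (∑ s ∈ P.support, |coeff s P|) * M (h * h) := by
  classical
  have hMh : 0 ≤ M (h * h) := hM.1 h (le_trans (Nat.le_add_right _ _) hh)
  have hL : M (aeval φ P * (h * h)) =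
      ∑ s ∈ P.support, coeff s P * M (aeval φ (monomial s (1 : ℝ)) * (h * h)) := by
    conv_lhs => rw [P.as_sum, map_sum, Finset.sum_mul, map_sum]
    refine Finset.sum_congr rfl fun s _ => ?_
    rw [show monomial s (coeff s P) = coeff s P • monomial s (1 : ℝ) by
      rw [smul_monomial, smul_eq_mul, mul_one], map_smul, smul_mul_assoc, map_smul, smul_eq_mul]
  have h0 : coeff 0 P * M (h * h) =
      ∑ s ∈ P.support, if s = 0 then coeff s P * M (h * h) else 0 := by
    rw [Finset.sum_ite_eq']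
    split_ifs with h0
    · rfl
    · simp [notMem_support_iff.mp h0]
  rw [hL, h0, ← Finset.sum_sub_distrib, Finset.mul_sum, Finset.sum_mul]
  refine (Finset.abs_sum_le_sum_abs _ _).trans (Finset.sum_le_sum fun s hs => ?_)
  split_ifs with h1
  · subst h1
    simp only [monomial_zero', map_one, one_mul, sub_self, abs_zero]
    positivity
  · rw [sub_zero, abs_mul]
    have hdeg : s.degree ≤ P.totalDegree := le_totalDegree hs
    have := mono_bound hM hδ hφ s h (by omega)
    have hpow : δ ^ s.degree ≤ δ := by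
      have h1' : 1 ≤ s.degree := Nat.one_le_iff_ne_zero.mpr fun h2 =>
        h1 ((Finsupp.degree_eq_zero_iff s).mp h2)
      simpa using pow_le_pow_of_le_one hδ.le hδ1 h1'
    calc |coeff s P| * |M (aeval φ (monomial s (1 : ℝ)) * (h * h))|
        ≤ |coeff s P| * (δ * M (h * h)) := by
          gcongr
          exact this.trans (mul_le_mul_of_nonneg_right hpow hMh)
      _ = δ * |coeff s P| * M (h * h) := by ring

/-- A quadratic expression in affine polynomials with nearly constant coefficients. -/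
lemma quad_bound (hM : BoxPos D δ M) (hδ : 0 < δ) (hδ1 : δ ≤ 1)
    {φ : σ → MvPolynomial (Fin k) ℝ} (hφ : BoxSubst D δ M φ) {ι : Type} [Fintype ι]
    (ℓ : ι → MvPolynomial (Fin k) ℝ) (hℓ : ∀ i, (ℓ i).totalDegree ≤ 1)
    (H : ι → ι → MvPolynomial σ ℝ) (hD : ∀ i j, 1 + (H i j).totalDegree ≤ D)
    (c : ι → ℝ) (hc : ∀ z : ι → ℝ, ∑ i, c i * z i ^ 2 ≤ ∑ i, ∑ j, coeff 0 (H i j) * z i * z j)
    {B : ℝ} (hB : ∀ i j, (∑ s ∈ (H i j).support, |coeff s (H i j)|) ≤ B) :
    ∑ i, (c i - δ * B * Fintype.card ι) * M (ℓ i * ℓ i) ≤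
      M (∑ i, ∑ j, aeval φ (H i j) * (ℓ i * ℓ j)) := by
  classical
  let A : Matrix ι ι ℝ := Matrix.of fun i j =>
    (coeff 0 (H i j) + coeff 0 (H j i)) / 2 - if i = j then c i else 0
  have hq : ∀ z : ι → ℝ, z ⬝ᵥ (A *ᵥ z) =
      ∑ i, ∑ j, coeff 0 (H i j) * z i * z j - ∑ i, c i * z i ^ 2 := by
    intro z
    simp only [A, dotProduct, mulVec, Matrix.of_apply, sub_mul, Finset.mul_sum, mul_sub,
      Finset.sum_sub_distrib]
    congr 1
    · have h2 : ∑ i, ∑ j, coeff 0 (H j i) * z i * z j = ∑ i, ∑ j, coeff 0 (H i j) * z i * z j := by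
        rw [Finset.sum_comm]; simp [mul_right_comm]
      calc ∑ i, ∑ j, z i * ((coeff 0 (H i j) + coeff 0 (H j i)) / 2 * z j)
          = (∑ i, ∑ j, coeff 0 (H i j) * z i * z j + ∑ i, ∑ j, coeff 0 (H j i) * z i * z j) / 2 := by
            simp only [← Finset.sum_add_distrib, Finset.sum_div]
            exact Finset.sum_congr rfl fun i _ => Finset.sum_congr rfl fun j _ => by ring
        _ = _ := by rw [h2]; ring
    · refine Finset.sum_congr rfl fun i _ => ?_
      simp [ite_mul, mul_ite, pow_two]; ring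
  have hA : A.PosSemidef := by
    refine PosSemidef.of_dotProduct_mulVec_nonneg ?_ fun z => ?_
    · ext i j
      simp only [Matrix.conjTranspose_apply, A, Matrix.of_apply, star_trivial]
      by_cases h : i = j
      · subst h; rfl
      · simp [h, Ne.symm h, add_comm]
    · rw [star_trivial, hq]; linarith [hc z]
  obtain ⟨R, hR⟩ : ∃ R : Matrix ι ι ℝ, A = Rᴴ * R :=
    ⟨CFC.sqrt A, by rw [(CFC.sqrt_nonneg A).posSemidef.1, CFC.sqrt_mul_sqrt_self A hA.nonneg]⟩
  let Z : ι → ι → ℝ := fun i j => M (ℓ i * ℓ j)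
  have hZs : ∀ i j, Z i j = Z j i := fun i j => by simp [Z, mul_comm]
  have hmain : ∑ i, c i * Z i i ≤ ∑ i, ∑ j, coeff 0 (H i j) * Z i j := by
    have hnn : 0 ≤ ∑ i, ∑ j, A i j * Z i j := by
      have hsq : ∑ i, ∑ j, A i j * Z i j =
          ∑ t, M ((∑ i, R t i • ℓ i) * (∑ j, R t j • ℓ j)) := by
        simp only [Finset.sum_mul, Finset.mul_sum, map_sum, smul_mul_assoc, mul_smul_comm, map_smul,
          smul_eq_mul]
        rw [Finset.sum_comm (s := Finset.univ) (t := Finset.univ)
          (f := fun t i => ∑ j, _)]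
        refine Finset.sum_congr rfl fun i _ => ?_
        rw [Finset.sum_comm (s := Finset.univ) (t := Finset.univ) (f := fun t j => _)]
        refine Finset.sum_congr rfl fun j _ => ?_
        simp only [hR, Matrix.mul_apply, Matrix.conjTranspose_apply, star_trivial, Finset.sum_mul]
        exact Finset.sum_congr rfl fun t _ => by simp [Z, mul_comm (ℓ i)]; ring
      rw [hsq]
      refine Finset.sum_nonneg fun t _ => hM.1 _ ((totalDegree_finsetSum _ _).trans
        (Finset.sup_le fun i _ => (totalDegree_smul_le _ _).trans ?_))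
      exact (hℓ i).trans (le_trans (Nat.le_add_right _ _) (hD i i))
    have hsplit : ∑ i, ∑ j, A i j * Z i j =
        ∑ i, ∑ j, coeff 0 (H i j) * Z i j - ∑ i, c i * Z i i := by
      have h2 : ∑ i, ∑ j, coeff 0 (H j i) * Z i j = ∑ i, ∑ j, coeff 0 (H i j) * Z i j := by
        rw [Finset.sum_comm]; simp [hZs]
      simp only [A, Matrix.of_apply, sub_mul, Finset.sum_sub_distrib, ite_mul, zero_mul,
        Finset.sum_ite_eq, Finset.mem_univ, if_true]
      congr 1
      calc ∑ i, ∑ j, (coeff 0 (H i j) + coeff 0 (H j i)) / 2 * Z i j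
          = (∑ i, ∑ j, coeff 0 (H i j) * Z i j + ∑ i, ∑ j, coeff 0 (H j i) * Z i j) / 2 := by
            simp only [← Finset.sum_add_distrib, Finset.sum_div]
            exact Finset.sum_congr rfl fun i _ => Finset.sum_congr rfl fun j _ => by ring
        _ = _ := by rw [h2]; ring
    linarith
  have herr : ∀ i j, |M (aeval φ (H i j) * (ℓ i * ℓ j)) - coeff 0 (H i j) * Z i j| ≤
      δ * B * ((Z i i + Z j j) / 2) := by
    intro i j
    have hdeg : ∀ P : MvPolynomial (Fin k) ℝ, P.totalDegree ≤ 1 →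
        P.totalDegree + (H i j).totalDegree ≤ D := fun P hP => by have := hD i j; omega
    have hp := poly_bound hM hδ hδ1 hφ (H i j) (ℓ i + ℓ j)
      (hdeg _ ((totalDegree_add _ _).trans (max_le (hℓ i) (hℓ j))))
    have hm := poly_bound hM hδ hδ1 hφ (H i j) (ℓ i - ℓ j)
      (hdeg _ ((totalDegree_sub _ _).trans (max_le (hℓ i) (hℓ j))))
    have hBp : 0 ≤ M ((ℓ i + ℓ j) * (ℓ i + ℓ j)) := hM.1 _ (((totalDegree_add _ _).trans
      (max_le (hℓ i) (hℓ j))).trans (le_trans (Nat.le_add_right _ _) (hD i j)))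
    have hBm : 0 ≤ M ((ℓ i - ℓ j) * (ℓ i - ℓ j)) := hM.1 _ (((totalDegree_sub _ _).trans
      (max_le (hℓ i) (hℓ j))).trans (le_trans (Nat.le_add_right _ _) (hD i j)))
    have hp' := hp.trans (mul_le_mul_of_nonneg_right
      (mul_le_mul_of_nonneg_left (hB i j) hδ.le) hBp)
    have hm' := hm.trans (mul_le_mul_of_nonneg_right
      (mul_le_mul_of_nonneg_left (hB i j) hδ.le) hBm)
    simp only [add_mul, mul_add, sub_mul, mul_sub, map_add, map_sub, mul_comm (ℓ j) (ℓ i),
      abs_le] at hp' hm' ⊢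
    simp only [Z]
    constructor <;> linarith
  rw [map_sum]
  simp only [map_sum]
  calc ∑ i, (c i - δ * B * Fintype.card ι) * M (ℓ i * ℓ i)
      = ∑ i, c i * Z i i - ∑ i, ∑ j, δ * B * ((Z i i + Z j j) / 2) := by
        simp only [sub_mul, Finset.sum_sub_distrib]
        congr 1
        have h1 : ∀ i : ι, ∑ j, δ * B * ((Z i i + Z j j) / 2) =
            δ * B / 2 * (Fintype.card ι * Z i i + ∑ j, Z j j) := by
          intro i
          rw [← Finset.mul_sum, ← Finset.sum_div, Finset.sum_add_distrib, Finset.sum_const,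
            Finset.card_univ, nsmul_eq_mul]
          ring
        simp only [h1, mul_add, Finset.sum_add_distrib, ← Finset.mul_sum, Finset.sum_const,
          Finset.card_univ, nsmul_eq_mul, Z]
        ring
    _ ≤ ∑ i, ∑ j, coeff 0 (H i j) * Z i j - ∑ i, ∑ j, δ * B * ((Z i i + Z j j) / 2) := by
        linarith
    _ ≤ ∑ i, ∑ j, M (aeval φ (H i j) * (ℓ i * ℓ j)) := by
        simp only [← Finset.sum_sub_distrib]
        exact Finset.sum_le_sum fun i _ => Finset.sum_le_sum fun j _ => by
          linarith [(abs_le.mp (herr i j)).1]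

end bounds

end Vale.Agent.P256.Iso
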