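import Vale.Agent.P256.Iso.Local

/-! Semidefinite covers of the boundary near isolated singular rays. -/

namespace Vale.Agent.P256.Iso

open MvPolynomial Topology Filter

variable {n d m : ℕ} {p : MvPolynomial (Fin n) ℝ} {e x : Fin n → ℝ}

/-- Boundary points reached from `x` along tangent directions in `A` at distance below `ε`. -/
def Reached (p : MvPolynomial (Fin n) ℝ) (e x : Fin n → ℝ) (A : Set (Fin n → ℝ)) (ε : ℝ) :
    Set (Fin n → ℝ) :=
  {y | ∃ c a : ℝ, ∃ v ∈ A, 0 < c ∧ 0 < a ∧ a < ε ∧ x + a • v ∈ hyperbolicityCone p e ∧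
    eval (x + a • v) p = 0 ∧ y = c • (x + a • v)}

variable (hp : IsHyperbolicPoly p e) (hd : p.IsHomogeneous d)
  (hx : x ∈ hyperbolicityCone p e) (hxne : x ≠ 0) (hnode : NodeAt p e x m)
include hp hd hx hxne hnode

/-- A piece covering the boundary near a tangent boundary direction. -/
theorem null_cover {ℓ : (Fin n → ℝ) →ₗ[ℝ] ℝ} (hℓ : ℓ x = 1) {v₀ : Fin n → ℝ} (hℓv : ℓ v₀ = 0)
    (hv₀ : v₀ ≠ 0) (hT : v₀ ∈ hyperbolicityCone (taylor x p m) e)
    (hQ0 : eval v₀ (taylor x p m) = 0) :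
    ∃ A ∈ 𝓝 v₀, ∃ ε > 0, Coverable p e (Reached p e x (A ∩ {v | ℓ v = 0}) ε) := by
  obtain ⟨hm, hlow, hQe, hnull⟩ := hnode
  have hQ := leading_hyperbolic hp hd hx hlow hQe
  have hQd := taylor_hom x p m
  set Q := taylor x p m with hQdef
  have hvspan : v₀ ∉ Submodule.span ℝ {x} := by
    intro h
    obtain ⟨c, rfl⟩ := Submodule.mem_span_singleton.mp h
    rw [map_smul, hℓ, smul_eq_mul, mul_one] at hℓv
    exact hv₀ (by rw [hℓv, zero_smul])
  obtain ⟨hde, hnext⟩ := hnull v₀ hvspan hT hQ0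
  rw [deriv_sum] at hde
  have hve : 0 < (line Q v₀ e).coeff 1 :=
    lt_of_le_of_ne (line_coeff_nonneg hQ hQd hT 1) (Ne.symm hde)
  have hneg : eval v₀ (taylor x p (m + 1)) < 0 :=
    lt_of_le_of_ne (next_nonpos hp hd hx hlow hQe hT hQ0 hve) hnext
  obtain ⟨φ, hφx, hφv⟩ := exists_second_functional ℓ hℓ hℓv hv₀
  obtain ⟨k, B, co, hBW, hBinj, hBco⟩ := exists_param (LinearMap.ker ℓ ⊓ LinearMap.ker φ)
  let F : MvPolynomial (Fin (k + 1)) ℝ := ∑ i ∈ Finset.range (d + 1),
    X 0 ^ i * aeval (fun l => C (v₀ l) + ∑ j : Fin k, C (B j l) * X j.succ) (taylor x p (m + i))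
  have hF : ∀ z : Fin (k + 1) → ℝ,
      eval z F = expand d p x m (z 0) (v₀ + ∑ j, z (Fin.succ j) • B j) := by
    intro z
    simp only [F, expand, map_sum, map_mul, map_pow, eval_X, eval_aeval]
    refine Finset.sum_congr rfl fun i _ => congrArg (fun f => z 0 ^ i * eval f (taylor x p (m + i))) ?_
    funext l
    simp [Finset.sum_apply, mul_comm]
  have hF0 : eval (0 : Fin (k + 1) → ℝ) F = 0 := by
    rw [hF]; simp only [Pi.zero_apply, zero_smul, Finset.sum_const_zero, add_zero, expand_zero]; exact hQ0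
  have hline : ∀ u : Fin k → ℝ, line F 0 (Fin.cons 0 u) = line Q v₀ (∑ j, u j • B j) := fun u =>
    Polynomial.funext fun t => by
      rw [line_eval, line_eval, hF, zero_add]
      simp [expand_zero, Finset.smul_sum, smul_smul, hQdef]
  have hline0 : (line F 0 (Pi.single 0 1)).coeff 1 = eval v₀ (taylor x p (m + 1)) := by
    have h : line F 0 (Pi.single 0 1) = ∑ i ∈ Finset.range (d + 1),
        Polynomial.C (eval v₀ (taylor x p (m + i))) * Polynomial.X ^ i :=
      Polynomial.funext fun t => by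
        rw [line_eval, hF, zero_add]
        simp only [expand, Pi.smul_apply, Pi.single_eq_same, Pi.single_eq_of_ne (Fin.succ_ne_zero _),
          smul_eq_mul, mul_one, mul_zero, zero_smul, Finset.sum_const_zero, add_zero,
          Polynomial.eval_finsetSum, Polynomial.eval_mul, Polynomial.eval_C, Polynomial.eval_pow,
          Polynomial.eval_X]
        exact Finset.sum_congr rfl fun i _ => mul_comm _ _
    rw [h, Polynomial.finsetSum_coeff]
    simp only [Polynomial.coeff_C_mul_X_pow, Finset.sum_ite_eq]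
    split_ifs with h1
    · rfl
    · rw [taylor_eq_zero hd x (by simp at h1; omega)]
  have hspan : ∀ u : Fin k → ℝ, u ≠ 0 → ∀ t : ℝ, ∀ c : ℝ,
      ∑ j, u j • B j ≠ c • x + t • v₀ := by
    intro u hu t c h
    have h1 : ℓ (c • x + t • v₀) = 0 := by rw [← h]; exact LinearMap.mem_ker.mp (hBW u).1
    have h2 : φ (c • x + t • v₀) = 0 := by rw [← h]; exact LinearMap.mem_ker.mp (hBW u).2
    simp [hℓ, hℓv] at h1
    simp [hφx, hφv] at h2
    exact hu (hBinj u (by rw [h, h1, h2, zero_smul, zero_smul, add_zero]))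
  obtain ⟨N, -, lam, hlam, hl⟩ := exists_shift (fun u => -(line Q v₀ (∑ j, u j • B j)).coeff 2)
    (fun u => (line Q v₀ (∑ j, u j • B j)).coeff 1 ^ 2)
    ((by simp only [line_coeff_taylor]; exact (continuous_eval _).comp (by fun_prop) :
      Continuous fun u : Fin k → ℝ => (line Q v₀ (∑ j, u j • B j)).coeff 2).neg)
    ((by simp only [line_coeff_taylor]; exact (continuous_eval _).comp (by fun_prop) :
      Continuous fun u : Fin k → ℝ => (line Q v₀ (∑ j, u j • B j)).coeff 1).pow 2)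
    (fun t u => by
      simp only [line_coeff_taylor, Pi.smul_apply, smul_eq_mul, ← smul_smul, ← Finset.smul_sum]
      rw [eval_smul_hom (taylor_hom _ _ _)]; ring)
    (fun t u => by
      simp only [line_coeff_taylor, Pi.smul_apply, smul_eq_mul, ← smul_smul, ← Finset.smul_sum]
      rw [eval_smul_hom (taylor_hom _ _ _)]; ring)
    (fun _ => sq_nonneg _) (fun u hu h0 => by
      set w := ∑ j, u j • B j with hw
      have h := strict_line hQ hQd hT hQ0 hve (pow_eq_zero_iff two_ne_zero |>.mp h0)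
      refine neg_pos.mpr (lt_of_le_of_ne h.1 fun h2 => ?_)
      have hzero := (h.2 h2).1
      have hout : ∀ t : ℝ, v₀ + t • w ∉ Submodule.span ℝ {x} := by
        intro t ht
        obtain ⟨c, hc⟩ := Submodule.mem_span_singleton.mp ht
        by_cases h1 : t = 0
        · rw [h1, zero_smul, add_zero] at hc
          exact hvspan (hc ▸ Submodule.mem_span_singleton.mpr ⟨c, rfl⟩)
        · refine hspan u hu (-t⁻¹) (t⁻¹ * c) ?_
          rw [← hw, mul_smul, hc, smul_add, smul_smul, inv_mul_cancel₀ h1, one_smul, neg_smul]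
          abel
      obtain ⟨hw1, hw2⟩ := mem_of_line_subset hQ hQd (line_subset_cone hQ hQd hT hzero fun t ht => by
        refine lt_of_le_of_ne (line_coeff_nonneg hQ hQd ht 1) (Ne.symm ?_)
        rw [← deriv_sum]
        exact (hnull _ (hout t) ht (hzero t)).1)
      have hwspan : w ∉ Submodule.span ℝ {x} := by
        intro h3
        obtain ⟨c, hc⟩ := Submodule.mem_span_singleton.mp h3
        exact hspan u hu 0 c (by rw [← hw, ← hc]; simp)
      have hl := line_eq_of_lineal hQ hQd hw1 hw2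
      have e0 : eval w Q = 0 := by
        rw [← line_coeff_zero Q w e, hl, Polynomial.coeff_C_mul_X_pow, if_neg (by omega)]
      refine (hnull w hwspan hw1 e0).1 ?_
      rw [deriv_sum, hl, Polynomial.coeff_C_mul_X_pow, if_neg (by omega)])
  let G : MvPolynomial (Fin (k + 1)) ℝ := -F + C N * (F * F)
  have hG : ∀ z, eval z G = -eval z F + N * (eval z F * eval z F) := fun z => by simp [G]
  have hlineG : ∀ z, line G 0 z = -line F 0 z + Polynomial.C N * (line F 0 z * line F 0 z) :=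
    fun z => by simp [line, G]
  have hc0 : ∀ z, (line F 0 z).coeff 0 = 0 := fun z => by rw [line_coeff_zero, hF0]
  have hγ : 0 < eval 0 (pderiv 0 G) := by
    have h1 : (line G 0 (Pi.single 0 1)).coeff 1 = eval 0 (pderiv 0 G) := by
      rw [line_coeff_one, Finset.sum_eq_single 0 (fun j _ hj => by simp [hj]) (by simp)]
      simp
    rw [← h1, hlineG, Polynomial.coeff_add, Polynomial.coeff_neg, Polynomial.coeff_C_mul,
      Polynomial.coeff_mul, Finset.Nat.sum_antidiagonal_eq_sum_range_succ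
        (fun i j => (line F 0 (Pi.single 0 1)).coeff i * (line F 0 (Pi.single 0 1)).coeff j)]
    simp [Finset.sum_range_succ, hc0, hline0]
    linarith
  have hpd : ∀ u : Fin k → ℝ, u ≠ 0 → 0 < (line G 0 (Fin.cons 0 u)).coeff 2 := by
    intro u hu
    have h2 : (line G 0 (Fin.cons 0 u)).coeff 2 = -(line Q v₀ (∑ j, u j • B j)).coeff 2 +
        N * (line Q v₀ (∑ j, u j • B j)).coeff 1 ^ 2 := by
      rw [hlineG, Polynomial.coeff_add, Polynomial.coeff_neg, Polynomial.coeff_C_mul,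
        Polynomial.coeff_mul, Finset.Nat.sum_antidiagonal_eq_sum_range_succ
          (fun i j => (line F 0 (Fin.cons 0 u)).coeff i * (line F 0 (Fin.cons 0 u)).coeff j)]
      simp [Finset.sum_range_succ, hline, pow_two, line_coeff_zero, hQ0]
    rw [h2]
    refine lt_of_lt_of_le (mul_pos hlam ?_) (hl u)
    obtain ⟨j, hj⟩ : ∃ j, u j ≠ 0 := Function.ne_iff.mp hu
    exact Finset.sum_pos' (fun i _ => sq_nonneg _) ⟨j, Finset.mem_univ _, by positivity⟩
  obtain ⟨δ₀, hδ₀, hpiece⟩ := node_piece x v₀ B G hγ hpd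
  have hnear : ∀ᶠ z in 𝓝 (0 : Fin (k + 1) → ℝ), N * eval z F < 1 ∧
      (0 < z 0 → 0 ≤ eval z F →
        x + z 0 • (v₀ + ∑ j, z (Fin.succ j) • B j) ∈ hyperbolicityCone p e) := by
    refine ((continuous_const.mul (continuous_eval F)).continuousAt.eventually_lt_const
      (show N * eval (0 : Fin (k + 1) → ℝ) F < 1 by rw [hF0]; simp)).and ?_
    have hc : Tendsto (fun z : Fin (k + 1) → ℝ => (z 0, v₀ + ∑ j, z (Fin.succ j) • B j)) (𝓝 0)
        (𝓝 ((0 : ℝ), v₀)) := by
      simpa using (show Continuous fun z : Fin (k + 1) → ℝ =>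
        (z 0, v₀ + ∑ j, z (Fin.succ j) • B j) by fun_prop).tendsto 0
    refine (hc.eventually (mem_near hp hd hx hlow hQe hT hve)).mono fun z hz h1 h2 => ?_
    rw [hF] at h2
    exact hz h1 h2
  obtain ⟨ρ, hρ, hball⟩ := Metric.eventually_nhds_iff.mp hnear
  set δ := min δ₀ (ρ / 2) with hδdef
  have hδ : 0 < δ := lt_min hδ₀ (half_pos hρ)
  obtain ⟨S, hS, hin, hout⟩ := hpiece δ hδ (min_le_left _ _)
  have hδρ : ∀ z : Fin (k + 1) → ℝ, (∀ i, |z i| ≤ δ) → dist z 0 < ρ := fun u hu => by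
    rw [dist_zero_right]
    have : δ ≤ ρ / 2 := min_le_right _ _
    exact lt_of_le_of_lt ((pi_norm_le_iff_of_nonneg hδ.le).mpr fun i => by
      simpa [Real.norm_eq_abs] using hu i) (by linarith)
  have h0S : (0 : Fin n → ℝ) ∈ S := by
    simpa using hin 0 0 (fun i => by simp [hδ.le]) le_rfl (by simp) le_rfl
  have hA : {v | 0 < φ v ∧ φ v < 2 ∧ ∀ j, |co ((φ v)⁻¹ • v - v₀) j| < δ} ∈ 𝓝 v₀ := by
    have hφc := φ.continuous_of_finiteDimensional.continuousAt (x := v₀)
    refine (Filter.Eventually.and ?_ (Filter.Eventually.and ?_ (eventually_all.mpr fun j => ?_)) :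
      ∀ᶠ v in 𝓝 v₀, 0 < φ v ∧ φ v < 2 ∧ ∀ j, |co ((φ v)⁻¹ • v - v₀) j| < δ)
    · exact hφc.eventually_const_lt (by rw [hφv]; norm_num)
    · exact hφc.eventually_lt_const (by rw [hφv]; norm_num)
    · have hc : ContinuousAt (fun v => |co ((φ v)⁻¹ • v - v₀) j|) v₀ :=
        ((continuous_apply j).comp co.continuous_of_finiteDimensional).abs.continuousAt.comp
          (((hφc.inv₀ (by rw [hφv]; norm_num)).smul continuousAt_id).sub continuousAt_const)
      exact hc.eventually_lt_const (by simpa [hφv] using hδ)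
  refine ⟨_, hA, δ / 2, half_pos hδ, S, hS, ?_, h0S, ?_, ?_⟩
  · intro y hy
    rcases hout y hy with rfl | ⟨T, z, hT0, hz, hz0, hGz, rfl⟩
    · exact cone_zero hp hd
    refine cone_smul hd hT0 ?_
    rcases hz0.lt_or_eq with hpos | hzero
    · obtain ⟨hN, hmem⟩ := hball (hδρ z hz)
      refine hmem hpos ?_
      rw [hG] at hGz
      have := nonpos_of_mul_nonpos_left (by rwa [mul_comm] at hGz) hpos
      nlinarith
    · rwa [← hzero, zero_smul, add_zero]
  · intro c hc y hy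
    rcases hout y hy with rfl | ⟨T, z, hT0, hz, hz0, hGz, rfl⟩
    · rwa [smul_zero]
    · rw [smul_smul]; exact hin z _ hz hz0 hGz (mul_nonneg hc hT0.le)
  · rintro y ⟨c, a, v, ⟨⟨hφ0, hφ2, hvu⟩, hℓv' : ℓ v = 0⟩, hc, ha, haε, -, hzero, rfl⟩
    set u := co ((φ v)⁻¹ • v - v₀) with hu
    have hker : (φ v)⁻¹ • v - v₀ ∈ LinearMap.ker ℓ ⊓ LinearMap.ker φ := by
      simp [Submodule.mem_inf, LinearMap.mem_ker, hℓv', hℓv, hφv, hφ0.ne']
    have hsame : (a * φ v) • (v₀ + ∑ j, u j • B j) = a • v := by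
      rw [hu, hBco _ hker, add_sub_cancel, smul_smul, mul_assoc, mul_inv_cancel₀ hφ0.ne', mul_one]
    have hFz : eval (Fin.cons (a * φ v) u : Fin (k + 1) → ℝ) F = 0 := by
      rw [hF]
      simp only [Fin.cons_zero, Fin.cons_succ]
      have h1 := expand_eq hd hlow (a * φ v) (v₀ + ∑ j, u j • B j)
      rw [hsame, hzero] at h1
      exact (mul_eq_zero.mp h1.symm).resolve_left (pow_ne_zero _ (mul_pos ha hφ0).ne')
    have hz : ∀ i, |(Fin.cons (a * φ v) u : Fin (k + 1) → ℝ) i| ≤ δ := by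
      refine Fin.cases ?_ fun j => ?_
      · rw [Fin.cons_zero, abs_of_pos (mul_pos ha hφ0)]
        nlinarith
      · rw [Fin.cons_succ]; exact (hvu j).le
    have := hin (Fin.cons (a * φ v) u) c hz
      (by rw [Fin.cons_zero]; exact (mul_pos ha hφ0).le) (by rw [hG, hFz]; simp) hc.le
    simp only [Fin.cons_zero, Fin.cons_succ] at this
    rwa [hsame] at this

/-- The boundary near an isolated singular ray is covered. -/
theorem node_cover :
    ∃ U ∈ 𝓝 x, Coverable p e {y | y ∈ U ∧ y ∈ hyperbolicityCone p e ∧ eval y p = 0} := by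
  obtain ⟨hm, hlow, hQe, hnull⟩ := id hnode
  have hQ := leading_hyperbolic hp hd hx hlow hQe
  obtain ⟨ℓ, hℓ⟩ := exists_functional hxne
  set D := Metric.sphere (0 : Fin n → ℝ) 1 ∩
    ({v | ℓ v = 0} ∩ hyperbolicityCone (taylor x p m) e) with hDdef
  have hD : IsCompact D := (isCompact_sphere _ _).inter_right
    ((isClosed_eq ℓ.continuous_of_finiteDimensional continuous_const).inter
      (cone_closed hQ (taylor_hom x p m)))
  have hcover : ∃ ε > 0, Coverable p e (Reached p e x D ε) := by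
    refine hD.induction_on (p := fun A => ∃ ε > 0, Coverable p e (Reached p e x A ε)) ?_ ?_ ?_ ?_
    · refine ⟨1, one_pos, (coverable_empty hp hd).mono ?_⟩
      rintro y ⟨c, a, v, hv, -⟩
      exact absurd hv (Set.notMem_empty v)
    · rintro A A' hAA' ⟨ε, hε, h⟩
      refine ⟨ε, hε, h.mono ?_⟩
      rintro y ⟨c, a, v, hv, hr⟩
      exact ⟨c, a, v, hAA' hv, hr⟩
    · rintro A A' ⟨ε, hε, h⟩ ⟨ε', hε', h'⟩
      refine ⟨min ε ε', lt_min hε hε', (coverable_union hp hd h h').mono ?_⟩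
      rintro y ⟨c, a, v, hv, h1, h2, h3, hr⟩
      rcases hv with hv | hv
      · exact Or.inl ⟨c, a, v, hv, h1, h2, h3.trans_le (min_le_left _ _), hr⟩
      · exact Or.inr ⟨c, a, v, hv, h1, h2, h3.trans_le (min_le_right _ _), hr⟩
    rintro v₀ ⟨hv1, hℓv, hT⟩
    by_cases hQ0 : eval v₀ (taylor x p m) = 0
    · obtain ⟨A, hA, ε, hε, h⟩ := null_cover hp hd hx hxne hnode hℓ hℓv
        (Metric.ne_of_mem_sphere hv1 one_ne_zero) hT hQ0
      exact ⟨A ∩ D, inter_mem (mem_nhdsWithin_of_mem_nhds hA) self_mem_nhdsWithin, ε, hε,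
        h.mono fun y ⟨c, a, v, hv, hr⟩ => ⟨c, a, v, ⟨hv.1, hv.2.2.1⟩, hr⟩⟩
    · have hev : ∀ᶠ z in 𝓝 ((0 : ℝ), v₀), expand d p x m z.1 z.2 ≠ 0 :=
        continuous_expand.continuousAt.eventually_ne (by simp only [expand_zero]; exact hQ0)
      obtain ⟨ε, hε, hball⟩ := Metric.eventually_nhds_iff.mp hev
      refine ⟨Metric.ball v₀ ε, mem_nhdsWithin_of_mem_nhds (Metric.ball_mem_nhds v₀ hε), ε, hε,
        (coverable_empty hp hd).mono ?_⟩
      rintro y ⟨c, a, v, hv, hc, ha, haε, -, hzero, -⟩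
      rw [expand_eq hd hlow, mul_eq_zero] at hzero
      refine absurd (hzero.resolve_left (pow_ne_zero _ ha.ne')) (hball (y := (a, v)) ?_)
      rw [Prod.dist_eq, max_lt_iff]
      exact ⟨by rw [Real.dist_eq, sub_zero, abs_of_pos ha]; exact haε, hv⟩
  obtain ⟨ε, hε, hcov⟩ := hcover
  refine ⟨{y | 0 < ℓ y ∧ ‖(ℓ y)⁻¹ • y - x‖ < ε}, ?_,
    (coverable_union hp hd hcov (coverable_ray hp hd hx)).mono ?_⟩
  · refine (Filter.Eventually.and ?_ ?_ : ∀ᶠ y in 𝓝 x, 0 < ℓ y ∧ ‖(ℓ y)⁻¹ • y - x‖ < ε)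
    · exact ℓ.continuous_of_finiteDimensional.continuousAt.eventually_const_lt
        (by rw [hℓ]; norm_num)
    · have hc : ContinuousAt (fun y => ‖(ℓ y)⁻¹ • y - x‖) x :=
        (((ℓ.continuous_of_finiteDimensional.continuousAt.inv₀ (by rw [hℓ]; norm_num)).smul
          continuousAt_id).sub continuousAt_const).norm
      exact hc.eventually_lt_const (by simpa [hℓ] using hε)
  rintro y ⟨⟨hℓy, hya⟩, hyK, hy0⟩
  set z := (ℓ y)⁻¹ • y - x with hz
  have hyz : y = ℓ y • (x + z) := by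
    rw [hz, add_sub_cancel, smul_smul, mul_inv_cancel₀ hℓy.ne', one_smul]
  by_cases hz0 : z = 0
  · exact Or.inr ⟨ℓ y, hℓy.le, by rw [hyz, hz0]; simp [hℓ]⟩
  · left
    have ha : 0 < ‖z‖ := norm_pos_iff.mpr hz0
    have hxz : x + ‖z‖ • ‖z‖⁻¹ • z = x + z := by
      rw [smul_smul, mul_inv_cancel₀ ha.ne', one_smul]
    have hxzK : x + z ∈ hyperbolicityCone p e := by
      rw [hz, add_sub_cancel]; exact cone_smul hd (inv_pos.mpr hℓy) hyK
    refine ⟨ℓ y, ‖z‖, ‖z‖⁻¹ • z, ⟨?_, ?_, ?_⟩, hℓy, ha, hya, ?_, ?_, ?_⟩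
    · simp [norm_smul, inv_mul_cancel₀ ha.ne']
    · simp [Set.mem_ofPred_eq, hz, hℓ, hℓy.ne']
    · exact mem_tangent hp hd hx hlow hQe ha (by rw [hxz]; exact hxzK)
    · rw [hxz]; exact hxzK
    · rw [hxz, hz, add_sub_cancel, eval_smul_hom hd, hy0, mul_zero]
    · rw [hxz]; exact hyz

end Vale.Agent.P256.Iso
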