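import Vale.Agent.P256.Garding

/-! Coefficient inequalities for real rooted polynomials and lines in the space of variables. -/

namespace Vale.Agent.P256.Iso

open Polynomial

/-- Closed conditions satisfied by real rooted polynomials of degree at most `N`: the first three
coefficients satisfy Newton's inequality and control all the others. -/
def Ctrl (N : ℕ) (c : ℕ → ℝ) : Prop :=
  0 ≤ c 1 ^ 2 - 2 * c 0 * c 2 ∧
    ∀ j, |c (j + 1)| * |c 0| ^ j ≤ 2 ^ N * Real.sqrt (c 1 ^ 2 - 2 * c 0 * c 2) ^ (j + 1)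

lemma ctrl_of_realRooted : ∀ (N : ℕ) (P : ℝ[X]), P.natDegree ≤ N →
    (∀ z : ℂ, aeval z P = 0 → z.im = 0) → Ctrl N P.coeff := by
  intro N
  induction N with
  | zero =>
    intro P hP _
    rw [eq_C_of_natDegree_le_zero hP]
    refine ⟨by simp [coeff_C], fun j => ?_⟩
    simp [coeff_C]
  | succ N ih =>
    intro P hP hr
    by_cases hN : P.natDegree ≤ N
    · obtain ⟨h1, h2⟩ := ih P hN hr
      refine ⟨h1, fun j => (h2 j).trans ?_⟩
      have : (0 : ℝ) ≤ 2 ^ N * Real.sqrt (P.coeff 1 ^ 2 - 2 * P.coeff 0 * P.coeff 2) ^ (j + 1) := by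
        positivity
      gcongr
      · norm_num
      · omega
    have hdeg : 0 < (P.map (algebraMap ℝ ℂ)).degree := by
      rw [degree_map]
      exact natDegree_pos_iff_degree_pos.mp (by omega)
    obtain ⟨z, hz⟩ := Complex.exists_root hdeg
    have hz' : aeval z P = 0 := by
      rw [aeval_def]
      rwa [IsRoot, eval_map] at hz
    have hzr : z = algebraMap ℝ ℂ z.re := Complex.ext (by simp) (by simp [hr z hz'])
    have hroot : P.IsRoot z.re := by
      rw [hzr, aeval_algebraMap_apply] at hz'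
      have := (algebraMap ℝ ℂ).injective (hz'.trans (map_zero _).symm)
      simpa [IsRoot, coe_aeval_eq_eval] using this
    obtain ⟨q, hq⟩ := dvd_iff_isRoot.mpr hroot
    set r := z.re
    have hP0 : P ≠ 0 := fun h => hN (by simp [h])
    have hq0 : q ≠ 0 := fun h => hP0 (by simp [hq, h])
    have hqdeg : q.natDegree ≤ N := by
      have : P.natDegree = 1 + q.natDegree := by
        rw [hq, natDegree_mul (X_sub_C_ne_zero r) hq0, natDegree_X_sub_C]
      omega
    obtain ⟨hS, hb⟩ := ih q hqdeg fun w hw => hr w (by rw [hq]; simp [hw])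
    have e0 : P.coeff 0 = -(r * q.coeff 0) := by rw [hq]; simp [mul_coeff_zero]
    have es : ∀ j, P.coeff (j + 1) = q.coeff j - r * q.coeff (j + 1) := fun j => by
      rw [hq, sub_mul, coeff_sub, coeff_X_mul, coeff_C_mul]
    set S := q.coeff 1 ^ 2 - 2 * q.coeff 0 * q.coeff 2 with hSdef
    have hS' : P.coeff 1 ^ 2 - 2 * P.coeff 0 * P.coeff 2 = q.coeff 0 ^ 2 + r ^ 2 * S := by
      rw [e0, es 0, es 1, hSdef]; ring
    have hnn : 0 ≤ q.coeff 0 ^ 2 + r ^ 2 * S := by positivity
    refine ⟨by rw [hS']; exact hnn, fun j => ?_⟩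
    rw [hS', e0, es j, abs_neg, abs_mul]
    set T := Real.sqrt (q.coeff 0 ^ 2 + r ^ 2 * S)
    have hA : |r| * Real.sqrt S ≤ T := by
      rw [← Real.sqrt_sq (abs_nonneg r), ← Real.sqrt_mul (sq_nonneg _), sq_abs]
      exact Real.sqrt_le_sqrt (by nlinarith [sq_nonneg (q.coeff 0)])
    have hB : |q.coeff 0| ≤ T := Real.abs_le_sqrt (by nlinarith [mul_nonneg (sq_nonneg r) hS])
    have hT : 0 ≤ T := Real.sqrt_nonneg _
    have hA0 : 0 ≤ |r| * Real.sqrt S := by positivity
    have h2 : (1 : ℝ) ≤ 2 ^ N := one_le_pow₀ (by norm_num)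
    have first : |q.coeff j| * (|r| * |q.coeff 0|) ^ j ≤ 2 ^ N * T ^ (j + 1) := by
      rcases j with _ | i
      · simp only [pow_zero, mul_one, zero_add, pow_one]
        nlinarith
      · have hi := hb i
        calc |q.coeff (i + 1)| * (|r| * |q.coeff 0|) ^ (i + 1)
            = (|q.coeff (i + 1)| * |q.coeff 0| ^ i) * |r| ^ (i + 1) * |q.coeff 0| := by
              rw [mul_pow, pow_succ (|q.coeff 0|) i]; ring
          _ ≤ (2 ^ N * Real.sqrt S ^ (i + 1)) * |r| ^ (i + 1) * |q.coeff 0| := by gcongr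
          _ = 2 ^ N * ((|r| * Real.sqrt S) ^ (i + 1) * |q.coeff 0|) := by rw [mul_pow]; ring
          _ ≤ 2 ^ N * (T ^ (i + 1) * T) := by gcongr
          _ = 2 ^ N * T ^ (i + 1 + 1) := by rw [pow_succ T (i + 1)]
    have second : |r * q.coeff (j + 1)| * (|r| * |q.coeff 0|) ^ j ≤ 2 ^ N * T ^ (j + 1) := by
      calc |r * q.coeff (j + 1)| * (|r| * |q.coeff 0|) ^ j
          = (|q.coeff (j + 1)| * |q.coeff 0| ^ j) * |r| ^ (j + 1) := by
            rw [abs_mul, mul_pow, pow_succ |r| j]; ring
        _ ≤ (2 ^ N * Real.sqrt S ^ (j + 1)) * |r| ^ (j + 1) :=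
            mul_le_mul_of_nonneg_right (hb j) (by positivity)
        _ = 2 ^ N * (|r| * Real.sqrt S) ^ (j + 1) := by rw [mul_pow]; ring
        _ ≤ 2 ^ N * T ^ (j + 1) := by gcongr
    calc |q.coeff j - r * q.coeff (j + 1)| * (|r| * |q.coeff 0|) ^ j
        ≤ (|q.coeff j| + |r * q.coeff (j + 1)|) * (|r| * |q.coeff 0|) ^ j := by
          gcongr; exact abs_sub _ _
      _ ≤ 2 ^ (N + 1) * T ^ (j + 1) := by
          rw [add_mul, pow_succ]; linarith

lemma nonneg_of_roots_nonpos : ∀ (N : ℕ) (P : ℝ[X]), P.natDegree ≤ N → 0 ≤ P.leadingCoeff →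
    (∀ z : ℂ, aeval z P = 0 → z.im = 0) → (∀ t : ℝ, 0 < t → P.eval t ≠ 0) →
      ∀ j, 0 ≤ P.coeff j := by
  intro N
  induction N with
  | zero =>
    intro P hP hl _ _ j
    rw [eq_C_of_natDegree_le_zero hP] at hl ⊢
    rw [leadingCoeff_C] at hl
    rw [coeff_C]
    split_ifs <;> simp_all
  | succ N ih =>
    intro P hP hl hr hpos j
    by_cases hN : P.natDegree ≤ N
    · exact ih P hN hl hr hpos j
    have hdeg : 0 < (P.map (algebraMap ℝ ℂ)).degree := by
      rw [degree_map]
      exact natDegree_pos_iff_degree_pos.mp (by omega)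
    obtain ⟨z, hz⟩ := Complex.exists_root hdeg
    have hz' : aeval z P = 0 := by
      rw [aeval_def]
      rwa [IsRoot, eval_map] at hz
    have hzr : z = algebraMap ℝ ℂ z.re := Complex.ext (by simp) (by simp [hr z hz'])
    have hroot : P.IsRoot z.re := by
      rw [hzr, aeval_algebraMap_apply] at hz'
      have := (algebraMap ℝ ℂ).injective (hz'.trans (map_zero _).symm)
      simpa [IsRoot, coe_aeval_eq_eval] using this
    obtain ⟨q, hq⟩ := dvd_iff_isRoot.mpr hroot
    set r := z.re
    have hP0 : P ≠ 0 := fun h => hN (by simp [h])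
    have hq0 : q ≠ 0 := fun h => hP0 (by simp [hq, h])
    have hqdeg : q.natDegree ≤ N := by
      have : P.natDegree = 1 + q.natDegree := by
        rw [hq, natDegree_mul (X_sub_C_ne_zero r) hq0, natDegree_X_sub_C]
      omega
    have hr0 : r ≤ 0 := by
      by_contra h
      exact hpos r (not_le.mp h) hroot
    have hlq : 0 ≤ q.leadingCoeff := by
      rw [hq, leadingCoeff_mul, leadingCoeff_X_sub_C, one_mul] at hl
      exact hl
    have hpq := ih q hqdeg hlq (fun w hw => hr w (by rw [hq]; simp [hw]))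
      fun t ht h => hpos t ht (by rw [hq]; simp [h])
    rcases j with _ | i
    · rw [hq, mul_coeff_zero]
      simp only [coeff_sub, coeff_X_zero, coeff_C_zero, zero_sub]
      nlinarith [hpq 0]
    · rw [hq, sub_mul, coeff_sub, coeff_X_mul, coeff_C_mul]
      nlinarith [hpq i, hpq (i + 1)]

variable {m : ℕ}

/-- The restriction of `q` to the line `t ↦ x + t • v`. -/
noncomputable def line (q : MvPolynomial (Fin m) ℝ) (x v : Fin m → ℝ) : ℝ[X] :=
  MvPolynomial.aeval (fun i => C (x i) + C (v i) * X) q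

lemma line_eval (q : MvPolynomial (Fin m) ℝ) (x v : Fin m → ℝ) (t : ℝ) :
    (line q x v).eval t = MvPolynomial.eval (x + t • v) q := by
  unfold line
  induction q using MvPolynomial.induction_on with
  | C r => simp
  | add p q hp hq => simp [hp, hq]
  | mul_X p i hp => simp [hp, mul_comm t]

lemma line_aeval (q : MvPolynomial (Fin m) ℝ) (x v : Fin m → ℝ) (z : ℂ) :
    aeval z (line q x v) = MvPolynomial.aeval (cplx x + z • cplx v) q := by
  unfold line
  induction q using MvPolynomial.induction_on with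
  | C r => simp
  | add p q hp hq => simp [hp, hq]
  | mul_X p i hp => simp [hp, cplx, mul_comm z]

lemma line_coeff_zero (q : MvPolynomial (Fin m) ℝ) (x v : Fin m → ℝ) :
    (line q x v).coeff 0 = MvPolynomial.eval x q := by
  rw [coeff_zero_eq_eval_zero, line_eval, zero_smul, add_zero]

lemma continuous_line_coeff (q : MvPolynomial (Fin m) ℝ) (j : ℕ) :
    Continuous fun a : (Fin m → ℝ) × (Fin m → ℝ) => (line q a.1 a.2).coeff j := by
  induction q using MvPolynomial.induction_on generalizing j with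
  | C r => simp [line, coeff_C]; split_ifs <;> exact continuous_const
  | add p q hp hq =>
    simp only [line, map_add, coeff_add]
    exact (hp j).add (hq j)
  | mul_X p i hp =>
    have h : ∀ a : (Fin m → ℝ) × (Fin m → ℝ), (line (p * MvPolynomial.X i) a.1 a.2).coeff j =
        a.1 i * (line p a.1 a.2).coeff j +
          a.2 i * (if j = 0 then 0 else (line p a.1 a.2).coeff (j - 1)) := by
      intro a
      simp only [line, map_mul, MvPolynomial.aeval_X]
      rw [mul_add, coeff_add, ← mul_assoc, coeff_mul_C]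
      rcases j with _ | k
      · rw [coeff_mul_X_zero, if_pos rfl, mul_zero]; ring
      · rw [coeff_mul_X, coeff_mul_C, if_neg (Nat.succ_ne_zero k), Nat.add_sub_cancel]; ring
    simp only [h]
    have h1 : Continuous fun a : (Fin m → ℝ) × (Fin m → ℝ) => a.1 i :=
      (continuous_apply i).comp continuous_fst
    have h2 : Continuous fun a : (Fin m → ℝ) × (Fin m → ℝ) => a.2 i :=
      (continuous_apply i).comp continuous_snd
    refine (h1.mul (hp j)).add (h2.mul ?_)
    split_ifs
    · exact continuous_const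
    · exact hp (j - 1)

lemma line_natDegree_le (q : MvPolynomial (Fin m) ℝ) (x v : Fin m → ℝ) {d : ℕ}
    (hd : q.totalDegree ≤ d) : (line q x v).natDegree ≤ d := by
  unfold line
  rw [MvPolynomial.aeval_def, MvPolynomial.eval₂_eq]
  refine natDegree_sum_le_of_forall_le _ _ fun s hs => ?_
  rw [Polynomial.algebraMap_eq]
  refine (natDegree_C_mul_le _ _).trans ((natDegree_prod_le _ _).trans ?_)
  refine le_trans ?_ ((MvPolynomial.le_totalDegree hs).trans hd)
  refine Finset.sum_le_sum fun i _ => ?_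
  refine natDegree_pow_le.trans ?_
  calc s i * (C (x i) + C (v i) * X).natDegree ≤ s i * 1 :=
        Nat.mul_le_mul_left _ ((natDegree_add_le _ _).trans (max_le (by simp)
          ((natDegree_C_mul_le _ _).trans natDegree_X_le)))
    _ = s i := mul_one _

end Vale.Agent.P256.Iso
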