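import Vale.Agent.P256.Iso.Cone

/-! Second order behaviour of a hyperbolic polynomial at a boundary point with nonzero gradient. -/

namespace Vale.Agent.P256.Iso

open Polynomial Topology Filter

variable {n d : ℕ} {q : MvPolynomial (Fin n) ℝ} {e : Fin n → ℝ}

lemma line_coeff_one (q : MvPolynomial (Fin n) ℝ) (x v : Fin n → ℝ) :
    (line q x v).coeff 1 = ∑ i, MvPolynomial.eval x (MvPolynomial.pderiv i q) * v i := by
  induction q using MvPolynomial.induction_on with
  | C r => simp [line, coeff_C]
  | add p q hp hq =>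
    simp only [line, map_add, coeff_add] at hp hq ⊢
    rw [hp, hq, ← Finset.sum_add_distrib]
    exact Finset.sum_congr rfl fun i _ => by ring
  | mul_X p i hp =>
    have h0 : (line p x v).coeff 0 = MvPolynomial.eval x p := line_coeff_zero p x v
    simp only [line, map_mul, MvPolynomial.aeval_X] at hp h0 ⊢
    rw [mul_add, coeff_add, ← mul_assoc, coeff_mul_C, coeff_mul_X, coeff_mul_C, hp, h0]
    have h1 : ∀ j, MvPolynomial.eval x (MvPolynomial.pderiv j (p * MvPolynomial.X i)) =
        MvPolynomial.eval x (MvPolynomial.pderiv j p) * x i +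
          if j = i then MvPolynomial.eval x p else 0 := by
      intro j
      rw [MvPolynomial.pderiv_mul, MvPolynomial.pderiv_X]
      by_cases h : j = i <;> simp [h, Ne.symm]
    simp only [h1, add_mul, ite_mul, zero_mul, Finset.sum_add_distrib, Finset.sum_ite_eq',
      Finset.mem_univ, if_true, Finset.sum_mul]
    congr 1
    exact Finset.sum_congr rfl fun j _ => by ring

lemma exists_coeff_poly (q : MvPolynomial (Fin n) ℝ) (w : Fin n → ℝ) :
    ∀ j, ∃ P : MvPolynomial (Fin n) ℝ, ∀ y, (line q y w).coeff j = MvPolynomial.eval y P := by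
  induction q using MvPolynomial.induction_on with
  | C r => exact fun j => ⟨MvPolynomial.C (if j = 0 then r else 0), fun y => by simp [line, coeff_C]⟩
  | add p q hp hq =>
    intro j
    obtain ⟨P, hP⟩ := hp j
    obtain ⟨Q, hQ⟩ := hq j
    refine ⟨P + Q, fun y => ?_⟩
    have e1 := hP y
    have e2 := hQ y
    simp only [line, map_add, coeff_add] at e1 e2 ⊢
    rw [e1, e2]
  | mul_X p i hp =>
    intro j
    obtain ⟨P, hP⟩ := hp j
    rcases j with _ | k
    · refine ⟨P * MvPolynomial.X i, fun y => ?_⟩
      rw [line_coeff_zero, map_mul, map_mul, ← hP, line_coeff_zero]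
    · obtain ⟨Q, hQ⟩ := hp k
      refine ⟨P * MvPolynomial.X i + MvPolynomial.C (w i) * Q, fun y => ?_⟩
      rw [map_add, map_mul, map_mul, MvPolynomial.eval_X, MvPolynomial.eval_C, ← hP, ← hQ]
      simp only [line, map_mul, MvPolynomial.aeval_X]
      rw [mul_add, coeff_add, ← mul_assoc, coeff_mul_C, coeff_mul_X, coeff_mul_C]
      ring

lemma eval_divX (P : ℝ[X]) (h : P.coeff 0 = 0) (s : ℝ) : P.eval s = s * P.divX.eval s := by
  conv_lhs => rw [← P.X_mul_divX_add, h]
  simp

lemma add_smul_mem (hq : IsHyperbolicPoly q e) (hd : q.IsHomogeneous d) {y : Fin n → ℝ}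
    (hy : y ∈ hyperbolicityCone q e) {s : ℝ} (hs : 0 < s) :
    y + s • e ∈ hyperbolicityCone q e :=
  cone_add' hq hd hy (cone_smul hd hs (cone_base hq hd))

/-- At a boundary point with positive derivative towards `e`, the second derivative is nonpositive
on directions annihilated by the first, and if it vanishes the line lies in the zero set and
enters the cone. -/
lemma strict_line (hq : IsHyperbolicPoly q e) (hd : q.IsHomogeneous d) {y : Fin n → ℝ}
    (hy : y ∈ hyperbolicityCone q e) (hy0 : MvPolynomial.eval y q = 0)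
    (he : 0 < (line q y e).coeff 1) {w : Fin n → ℝ} (hw : (line q y w).coeff 1 = 0) :
    (line q y w).coeff 2 ≤ 0 ∧ ((line q y w).coeff 2 = 0 →
      (∀ t : ℝ, MvPolynomial.eval (y + t • w) q = 0) ∧
        ∀ᶠ t in 𝓝 (0 : ℝ), y + t • w ∈ hyperbolicityCone q e) := by
  choose P hP using exists_coeff_poly q w
  let A : ℕ → ℝ[X] := fun j => line (P j) y e
  have hA : ∀ j s, (A j).eval s = (line q (y + s • e) w).coeff j := fun j s => by
    simp only [A, line_eval, hP]
  have hA0 : ∀ j, (A j).coeff 0 = (line q y w).coeff j := fun j => by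
    simp only [A, line_coeff_zero, hP]
  let a : ℝ → ℝ := fun s => (line q y e).divX.eval s
  let b : ℝ → ℝ := fun s => (A 1).divX.eval s
  have ha : ∀ s, (line q (y + s • e) w).coeff 0 = s * a s := fun s => by
    rw [line_coeff_zero, ← line_eval, eval_divX _ (by rw [line_coeff_zero, hy0])]
  have hb : ∀ s, (line q (y + s • e) w).coeff 1 = s * b s := fun s => by
    rw [← hA, eval_divX _ (by rw [hA0, hw])]
  have ha0 : a 0 = (line q y e).coeff 1 := by
    simp only [a, ← coeff_zero_eq_eval_zero, coeff_divX, zero_add]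
  have hac : Continuous a := (line q y e).divX.continuous
  have hbc : Continuous b := (A 1).divX.continuous
  refine ⟨?_, fun h2 => ?_⟩
  · have hle : ∀ᶠ s in 𝓝[>] (0 : ℝ), 2 * a s * (A 2).eval s ≤ s * b s ^ 2 := by
      filter_upwards [self_mem_nhdsWithin] with s hs
      have h := (ctrl_line hq hd hy hs w).1
      rw [ha, hb, ← hA] at h
      by_contra hlt
      push Not at hlt
      nlinarith [mul_lt_mul_of_pos_left hlt (show (0 : ℝ) < s from hs)]
    have h := le_of_tendsto_of_tendsto
      (((hac.const_mul 2).mul (A 2).continuous).continuousWithinAt (s := Set.Ioi 0) (x := 0))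
      ((continuous_id.mul (hbc.pow 2)).continuousWithinAt (s := Set.Ioi 0) (x := 0)) hle
    simp only [Pi.mul_apply, Pi.pow_apply, ha0, id, zero_mul, ← coeff_zero_eq_eval_zero, hA0] at h
    nlinarith
  have hzero : ∀ j, (line q y w).coeff (j + 1) = 0 := by
    intro j
    let R : ℝ → ℝ := fun s => b s ^ 2 - 2 * a s * (A 2).divX.eval s
    have hRc : Continuous R :=
      (hbc.pow 2).sub ((hac.const_mul 2).mul (A 2).divX.continuous)
    have hle : ∀ᶠ s in 𝓝[>] (0 : ℝ), |(A (j + 1)).eval s| * |a s| ^ j ≤
        2 ^ d * s * Real.sqrt (R s) ^ (j + 1) := by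
      filter_upwards [self_mem_nhdsWithin] with s hs
      have hs0 : (0 : ℝ) < s := hs
      have h := (ctrl_line hq hd hy hs w).2 j
      rw [ha, hb, ← hA (j + 1)] at h
      have e2 : (line q (y + s • e) w).coeff 2 = s * (A 2).divX.eval s := by
        rw [← hA, eval_divX _ (by rw [hA0, h2])]
      rw [e2, show (s * b s) ^ 2 - 2 * (s * a s) * (s * (A 2).divX.eval s) = s ^ 2 * R s by
        simp only [R]; ring, Real.sqrt_mul (sq_nonneg s), Real.sqrt_sq hs0.le, abs_mul,
        abs_of_pos hs0] at h
      refine le_of_mul_le_mul_right ?_ (pow_pos hs0 j)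
      calc |(A (j + 1)).eval s| * |a s| ^ j * s ^ j
          = |(A (j + 1)).eval s| * (s * |a s|) ^ j := by ring
        _ ≤ 2 ^ d * (s * Real.sqrt (R s)) ^ (j + 1) := h
        _ = 2 ^ d * s * Real.sqrt (R s) ^ (j + 1) * s ^ j := by ring
    have h := le_of_tendsto_of_tendsto
      (((A (j + 1)).continuous.abs.mul (hac.abs.pow j)).continuousWithinAt
        (s := Set.Ioi 0) (x := 0))
      (((continuous_const.mul continuous_id).mul (hRc.sqrt.pow (j + 1))).continuousWithinAt
        (s := Set.Ioi 0) (x := 0)) hle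
    simp only [Pi.mul_apply, Pi.pow_apply, Pi.abs_apply, abs, id, mul_zero, zero_mul, ← coeff_zero_eq_eval_zero, hA0, ha0] at h
    have hp : 0 < |(line q y e).coeff 1| ^ j := pow_pos (abs_pos.mpr he.ne') j
    exact abs_nonpos_iff.mp (nonpos_of_mul_nonpos_left h hp)
  have hline : ∀ t : ℝ, MvPolynomial.eval (y + t • w) q = 0 := by
    intro t
    rw [← line_eval, show line q y w = 0 from Polynomial.ext fun j => ?_, eval_zero]
    rcases j with _ | j
    · rw [line_coeff_zero, hy0, coeff_zero]
    · rw [hzero, coeff_zero]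
  refine ⟨hline, ?_⟩
  let h : ℝ × ℝ → ℝ := fun z =>
    ∑ i ∈ Finset.range (d + 1), (line q (y + z.1 • w) e).coeff (i + 1) * z.2 ^ i
  have hh : ∀ t s, MvPolynomial.eval (y + t • w + s • e) q = s * h (t, s) := by
    intro t s
    rw [← line_eval, eval_eq_sum_range' (n := d + 2)
      (by have := line_natDegree_le q (y + t • w) e hd.totalDegree_le; omega),
      Finset.sum_range_succ', line_coeff_zero, hline t, Finset.mul_sum]
    simp [pow_succ, mul_comm, mul_assoc]
  have hhc : Continuous h := continuous_finsetSum _ fun i _ =>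
    ((continuous_line_coeff q (i + 1)).comp
      ((continuous_const.add (continuous_fst.smul continuous_const)).prodMk continuous_const)).mul
      (continuous_snd.pow i)
  have h00 : h (0, 0) = (line q y e).coeff 1 := by
    simp only [h, zero_smul, add_zero]
    rw [Finset.sum_eq_single 0]
    · simp
    · intro i _ hi; simp [zero_pow hi]
    · simp
  obtain ⟨ε, hε, hball⟩ := Metric.eventually_nhds_iff.mp
    (hhc.continuousAt.eventually_const_lt (show 0 < h (0, 0) by rw [h00]; exact he))
  set T := ε / 2 with hT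
  have hT0 : 0 < T := half_pos hε
  have hyT := add_smul_mem hq hd hy hT0
  have hne := (eval_pos_of_strict hq hd hy hT0).ne'
  have hev : ∀ᶠ t in 𝓝 (0 : ℝ), y + t • w + T • e ∈ hyperbolicityCone q e := by
    have hc : Tendsto (fun t : ℝ => y + t • w + T • e) (𝓝 0) (𝓝 (y + T • e)) := by
      simpa using ((show Continuous fun t : ℝ => y + t • w + T • e by fun_prop).tendsto 0)
    exact hc.eventually (cone_eventually hq hd hyT hne)
  filter_upwards [hev, Metric.ball_mem_nhds (0 : ℝ) hε] with t ht htε
  refine mem_of_segment hq hd ht fun s hs hsT => ?_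
  rw [hh]
  refine (mul_pos hs (hball ?_)).ne'
  rw [Prod.dist_eq, max_lt_iff]
  refine ⟨by simpa using htε, ?_⟩
  rw [Real.dist_eq, sub_zero, abs_of_pos hs]
  linarith

/-- If every point of the cone on the line is a boundary point with positive derivative towards
`e`, and the line lies in the zero set with zero second derivative, then it lies in the cone. -/
lemma line_subset_cone (hq : IsHyperbolicPoly q e) (hd : q.IsHomogeneous d) {y w : Fin n → ℝ}
    (hy : y ∈ hyperbolicityCone q e) (hline : ∀ t : ℝ, MvPolynomial.eval (y + t • w) q = 0)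
    (hgood : ∀ t : ℝ, y + t • w ∈ hyperbolicityCone q e →
      0 < (line q (y + t • w) e).coeff 1) :
    ∀ t : ℝ, y + t • w ∈ hyperbolicityCone q e := by
  let I : Set ℝ := {t | y + t • w ∈ hyperbolicityCone q e}
  have hcl : IsClosed I := (cone_closed hq hd).preimage (by fun_prop)
  have hop : IsOpen I := by
    rw [isOpen_iff_eventually]
    intro b hb
    have hz : line q (y + b • w) w = 0 := Polynomial.funext fun t => by
      rw [line_eval, eval_zero, add_assoc, ← add_smul, hline]
    obtain ⟨-, h⟩ := strict_line hq hd hb (hline b) (hgood b hb) (w := w)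
      (by rw [hz, coeff_zero])
    have h' := (h (by rw [hz, coeff_zero])).2
    have ht : Tendsto (fun t : ℝ => t - b) (𝓝 b) (𝓝 0) := by
      simpa using (show Continuous fun t : ℝ => t - b by fun_prop).tendsto b
    refine (ht.eventually h').mono fun t ht => ?_
    show y + t • w ∈ hyperbolicityCone q e
    rwa [add_assoc, ← add_smul, add_sub_cancel] at ht
  have := IsClopen.eq_univ ⟨hcl, hop⟩ ⟨0, by simpa [I] using hy⟩
  intro t
  have h : t ∈ I := by rw [this]; exact Set.mem_univ t
  exact h

lemma mem_of_line_subset (hq : IsHyperbolicPoly q e) (hd : q.IsHomogeneous d) {y w : Fin n → ℝ}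
    (h : ∀ t : ℝ, y + t • w ∈ hyperbolicityCone q e) :
    w ∈ hyperbolicityCone q e ∧ -w ∈ hyperbolicityCone q e := by
  have key : ∀ v : Fin n → ℝ, (∀ t : ℝ, y + t • v ∈ hyperbolicityCone q e) →
      v ∈ hyperbolicityCone q e := by
    intro v hv
    have hc : Tendsto (fun r : ℝ => r • y + v) (𝓝[>] 0) (𝓝 v) := by
      simpa using ((show Continuous fun r : ℝ => r • y + v by fun_prop).tendsto 0).mono_left
        nhdsWithin_le_nhds
    refine (cone_closed hq hd).mem_of_tendsto hc ?_
    filter_upwards [self_mem_nhdsWithin] with r hr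
    have hr0 : (0 : ℝ) < r := hr
    have := cone_smul hd hr0 (hv r⁻¹)
    rwa [smul_add, smul_smul, mul_inv_cancel₀ hr0.ne', one_smul] at this
  refine ⟨key w h, key (-w) fun t => ?_⟩
  simpa [smul_neg, neg_smul] using h (-t)

/-- A hyperbolic polynomial is constant along a line of the lineality space. -/
lemma line_eq_of_lineal (hq : IsHyperbolicPoly q e) (hd : q.IsHomogeneous d) {w : Fin n → ℝ}
    (hw : w ∈ hyperbolicityCone q e) (hw' : -w ∈ hyperbolicityCone q e) :
    line q w e = C (MvPolynomial.eval e q) * X ^ d := by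
  have hmem : ∀ r : ℝ, r • w ∈ hyperbolicityCone q e := by
    intro r
    rcases lt_trichotomy r 0 with h | h | h
    · simpa [smul_neg, neg_smul] using cone_smul hd (neg_pos.mpr h) hw'
    · simpa [h] using cone_zero hq hd
    · exact cone_smul hd h hw
  have hne : ∀ r : ℝ, MvPolynomial.eval (e + r • w) q ≠ 0 := fun r => by
    rw [add_comm]
    simpa using eval_ne_zero_of_strict hd (hmem r) one_pos
  have hconst : line q e w = C (MvPolynomial.eval e q) := by
    rw [← line_coeff_zero q e w]
    refine eq_C_of_degree_le_zero ?_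
    by_contra hdeg
    have hpos : 0 < ((line q e w).map (algebraMap ℝ ℂ)).degree := by
      rw [degree_map]; exact not_le.mp hdeg
    obtain ⟨z, hz⟩ := Complex.exists_root hpos
    rw [IsRoot, eval_map, ← aeval_def, line_aeval] at hz
    have hz0 : z ≠ 0 := by
      intro h
      rw [h, zero_smul, add_zero, aeval_cplx] at hz
      exact hq.2.1.ne' (by exact_mod_cast hz)
    have h1 : cplx e + z • cplx w = z • fun i => z⁻¹ * (e i : ℂ) - ((-w) i : ℂ) := by
      ext l; simp [cplx]; field_simp
    rw [h1, aeval_smul_hom hd, mul_eq_zero] at hz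
    have him := hq.2.2 (-w) z⁻¹ (hz.resolve_left (pow_ne_zero _ hz0))
    rw [Complex.inv_im, div_eq_zero_iff] at him
    have hzr : z.im = 0 := by
      rcases him with h | h
      · linarith
      · exact absurd (Complex.normSq_eq_zero.mp h) hz0
    have hz' : z = (z.re : ℂ) := Complex.ext (by simp) (by simp [hzr])
    have h2 : cplx e + (z.re : ℂ) • cplx w = cplx (e + z.re • w) := by
      ext l; simp [cplx]
    apply hne z.re
    have h3 : MvPolynomial.aeval (cplx e + z • cplx w) q = 0 := by
      rw [h1, aeval_smul_hom hd, hz.resolve_left (pow_ne_zero _ hz0), mul_zero]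
    rw [hz', h2, aeval_cplx] at h3
    exact_mod_cast h3
  have key : ∀ t : ℝ, t ≠ 0 → (line q w e).eval t = (C (MvPolynomial.eval e q) * X ^ d).eval t := by
    intro t ht
    rw [line_eval, show w + t • e = t • (e + t⁻¹ • w) by
      rw [smul_add, smul_smul, mul_inv_cancel₀ ht, one_smul, add_comm], eval_smul_hom hd,
      ← line_eval q e w, hconst, eval_C, eval_mul, eval_C, eval_pow, eval_X, mul_comm]
  refine Polynomial.eq_of_infinite_eval_eq _ _ ((Set.finite_singleton (0 : ℝ)).infinite_compl.mono ?_)
  intro t ht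
  exact key t (by simpa using ht)

end Vale.Agent.P256.Iso
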