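import Vale.Agent.P256.Iso.Strict

/-! The leading part of a hyperbolic polynomial at a point of its cone, and the tangent cone. -/

namespace Vale.Agent.P256.Iso

open Polynomial Topology Filter

variable {n d m : ℕ} {p : MvPolynomial (Fin n) ℝ} {e x : Fin n → ℝ}

lemma norm_le_of_realRooted : ∀ (N : ℕ) (P : ℝ[X]), P.natDegree ≤ N →
    (∀ z : ℂ, aeval z P = 0 → z.im = 0) → ∀ s a b : ℝ, |a| ≤ |b| →
      ‖aeval ((s : ℂ) + (a : ℂ) * Complex.I) P‖ ≤ ‖aeval ((s : ℂ) + (b : ℂ) * Complex.I) P‖ := by
  intro N
  induction N with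
  | zero =>
    intro P hP _ s a b _
    rw [eq_C_of_natDegree_le_zero hP]
    simp
  | succ N ih =>
    intro P hP hr s a b hab
    by_cases hN : P.natDegree ≤ N
    · exact ih P hN hr s a b hab
    have hdeg : 0 < (P.map (algebraMap ℝ ℂ)).degree := by
      rw [degree_map]
      exact natDegree_pos_iff_degree_pos.mp (by omega)
    obtain ⟨z, hz⟩ := Complex.exists_root hdeg
    have hz' : aeval z P = 0 := by
      rw [aeval_def]
      rwa [IsRoot, eval_map] at hz
    have hzr : z = algebraMap ℝ ℂ z.re := Complex.ext (by simp) (by simp [hr z hz'])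
    have hroot : P.IsRoot z.re := by
      rw [hzr, aeval_algebraMap_apply] at hz'
      have := (algebraMap ℝ ℂ).injective (hz'.trans (map_zero _).symm)
      simpa [IsRoot, coe_aeval_eq_eval] using this
    obtain ⟨q, hq⟩ := dvd_iff_isRoot.mpr hroot
    set r := z.re
    have hP0 : P ≠ 0 := fun h => hN (by simp [h])
    have hq0 : q ≠ 0 := fun h => hP0 (by simp [hq, h])
    have hqdeg : q.natDegree ≤ N := by
      have : P.natDegree = 1 + q.natDegree := by
        rw [hq, natDegree_mul (X_sub_C_ne_zero r) hq0, natDegree_X_sub_C]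
      omega
    have h := ih q hqdeg (fun w hw => hr w (by rw [hq]; simp [hw])) s a b hab
    have hn : ∀ c : ℝ, ‖((s : ℂ) + (c : ℂ) * Complex.I) - (r : ℂ)‖ =
        Real.sqrt ((s - r) ^ 2 + c ^ 2) := by
      intro c
      rw [← Complex.norm_add_mul_I, Complex.ofReal_sub]
      congr 1
      ring
    simp only [hq, map_mul, aeval_sub, aeval_X, aeval_C, Complex.coe_algebraMap, norm_mul, hn]
    refine mul_le_mul (Real.sqrt_le_sqrt (by nlinarith [sq_le_sq.mpr hab])) h (norm_nonneg _)
      (Real.sqrt_nonneg _)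

lemma taylor_eq_zero (hd : p.IsHomogeneous d) (x : Fin n → ℝ) {k : ℕ} (hk : d < k)
    (z : Fin n → ℝ) : MvPolynomial.eval z (taylor x p k) = 0 := by
  rw [← line_coeff_taylor]
  exact coeff_eq_zero_of_natDegree_lt
    (lt_of_le_of_lt (line_natDegree_le p x z hd.totalDegree_le) hk)

/-- The quotient of `p (x + a • z)` by `a ^ m`. -/
noncomputable def expand (d : ℕ) (p : MvPolynomial (Fin n) ℝ) (x : Fin n → ℝ) (m : ℕ) (a : ℝ)
    (z : Fin n → ℝ) : ℝ :=
  ∑ i ∈ Finset.range (d + 1), a ^ i * MvPolynomial.eval z (taylor x p (m + i))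

lemma continuous_expand :
    Continuous fun z : ℝ × (Fin n → ℝ) => expand d p x m z.1 z.2 :=
  continuous_finsetSum _ fun _ _ =>
    (continuous_fst.pow _).mul ((MvPolynomial.continuous_eval _).comp continuous_snd)

lemma expand_eq (hd : p.IsHomogeneous d) (hlow : ∀ k < m, taylor x p k = 0) (a : ℝ)
    (z : Fin n → ℝ) :
    MvPolynomial.eval (x + a • z) p = a ^ m * expand d p x m a z := by
  rw [← line_eval, eval_eq_sum_range' (n := m + (d + 1))
    (by have := line_natDegree_le p x z hd.totalDegree_le; omega), Finset.sum_range_add,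
    Finset.sum_eq_zero, zero_add, expand, Finset.mul_sum]
  · refine Finset.sum_congr rfl fun i _ => ?_
    rw [line_coeff_taylor, pow_add]
    ring
  · intro k hk
    rw [line_coeff_taylor, hlow k (Finset.mem_range.mp hk), map_zero, zero_mul]

lemma expand_zero (z : Fin n → ℝ) :
    expand d p x m 0 z = MvPolynomial.eval z (taylor x p m) := by
  rw [expand, Finset.sum_eq_single 0]
  · simp
  · intro i _ hi; simp [zero_pow hi]
  · simp

lemma taylor_pos (hp : IsHyperbolicPoly p e) (hd : p.IsHomogeneous d)
    (hx : x ∈ hyperbolicityCone p e) (hQe : MvPolynomial.eval e (taylor x p m) ≠ 0) :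
    0 < MvPolynomial.eval e (taylor x p m) := by
  have h := line_coeff_nonneg hp hd hx m
  rw [line_coeff_taylor] at h
  exact lt_of_le_of_ne h hQe.symm

/-- The leading part is hyperbolic. -/
theorem leading_hyperbolic (hp : IsHyperbolicPoly p e) (hd : p.IsHomogeneous d)
    (hx : x ∈ hyperbolicityCone p e) (hlow : ∀ k < m, taylor x p k = 0)
    (hQe : MvPolynomial.eval e (taylor x p m) ≠ 0) :
    IsHyperbolicPoly (taylor x p m) e := by
  refine ⟨⟨m, taylor_hom x p m⟩, taylor_pos hp hd hx hQe, fun y z hz => ?_⟩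
  by_contra him
  set v := -y with hv
  let P : ℝ → ℝ[X] := fun a => ∑ i ∈ Finset.range (d + 1), C (a ^ i) * line (taylor x p (m + i)) v e
  have hPeval : ∀ a t, (P a).eval t = expand d p x m a (v + t • e) := by
    intro a t
    simp [P, expand, line_eval, eval_finsetSum]
  have hP0 : P 0 = line (taylor x p m) v e :=
    Polynomial.funext fun t => by rw [hPeval, expand_zero, line_eval]
  have hroots : ∀ a : ℝ, a ≠ 0 → ∀ w : ℂ, aeval w (P a) = 0 → w.im = 0 := by
    intro a ha w hw
    have h1 : line p (x + a • v) (a • e) = C (a ^ m) * P a := Polynomial.funext fun t => by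
      rw [line_eval, eval_mul, eval_C, hPeval, ← expand_eq hd hlow]
      refine congrArg (fun w => MvPolynomial.eval w p) ?_
      ext l; simp; ring
    have h2 : aeval w (line p (x + a • v) (a • e)) = 0 := by rw [h1, map_mul, hw, mul_zero]
    rw [line_aeval] at h2
    have h3 := hp.2.2 (-(x + a • v)) ((a : ℂ) * w) (by
      rw [← h2]
      congr 1
      apply congrArg
      ext l; simp [cplx]; ring)
    simpa [ha] using h3
  have hzero : ∀ b : ℝ, |b| ≤ |z.im| → aeval ((z.re : ℂ) + (b : ℂ) * Complex.I) (P 0) = 0 := by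
    intro b hb
    have hc : ∀ w : ℂ, Continuous fun a : ℝ => ‖aeval w (P a)‖ := fun w => by
      simp only [P, map_sum, map_mul, aeval_C, Complex.coe_algebraMap]
      refine (continuous_finsetSum _ fun i _ => ?_).norm
      exact (Complex.continuous_ofReal.comp (continuous_id.pow i)).mul continuous_const
    have hle : ∀ᶠ a in 𝓝[>] (0 : ℝ), ‖aeval ((z.re : ℂ) + (b : ℂ) * Complex.I) (P a)‖ ≤
        ‖aeval z (P a)‖ := by
      filter_upwards [self_mem_nhdsWithin] with a ha
      have := norm_le_of_realRooted _ (P a) le_rfl (hroots a (ne_of_gt (Set.mem_Ioi.mp ha))) z.re b z.im hb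
      rwa [Complex.re_add_im] at this
    have h := le_of_tendsto_of_tendsto ((hc _).continuousWithinAt (s := Set.Ioi 0) (x := 0))
      ((hc z).continuousWithinAt (s := Set.Ioi 0) (x := 0)) hle
    have hz' : aeval z (P 0) = 0 := by
      rw [hP0, line_aeval, ← hz]
      congr 1
      apply congrArg
      ext l; simp [hv, cplx]; ring
    simpa [hz'] using h
  have hinf : {w : ℂ | ((P 0).map (algebraMap ℝ ℂ)).IsRoot w}.Infinite := by
    refine ((Set.Icc_infinite (abs_pos.mpr him)).image
      (f := fun b : ℝ => (z.re : ℂ) + (b : ℂ) * Complex.I) fun b _ b' _ h => ?_).mono ?_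
    · simpa using congrArg Complex.im h
    · rintro w ⟨b, hb, rfl⟩
      have := hzero b (by rw [abs_of_nonneg hb.1]; exact hb.2)
      simpa [IsRoot, eval_map, ← aeval_def] using this
  have h0 := eq_zero_of_infinite_isRoot _ hinf
  rw [Polynomial.map_eq_zero, hP0] at h0
  have htop := line_coeff_top (taylor_hom x p m) v e
  rw [h0, coeff_zero] at htop
  exact hQe htop.symm

lemma exists_shift_mem (hp : IsHyperbolicPoly p e) (hd : p.IsHomogeneous d) (z : Fin n → ℝ) :
    ∃ T : ℝ, 0 < T ∧ ∀ τ, T ≤ τ → z + τ • e ∈ hyperbolicityCone p e := by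
  have hc : Tendsto (fun τ : ℝ => τ⁻¹ • z + e) atTop (𝓝 e) := by
    simpa using ((tendsto_inv_atTop_zero (𝕜 := ℝ)).smul_const z).add_const e
  obtain ⟨T, hT⟩ := eventually_atTop.mp
    (hc.eventually (cone_eventually hp hd (cone_base hp hd) hp.2.1.ne'))
  refine ⟨max T 1, by positivity, fun τ hτ => ?_⟩
  have hτ0 : 0 < τ := lt_of_lt_of_le one_pos ((le_max_right _ _).trans hτ)
  have := cone_smul hd hτ0 (hT τ ((le_max_left _ _).trans hτ))
  rwa [smul_add, smul_smul, mul_inv_cancel₀ hτ0.ne', one_smul] at this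

variable (hp : IsHyperbolicPoly p e) (hd : p.IsHomogeneous d)
  (hx : x ∈ hyperbolicityCone p e) (hlow : ∀ k < m, taylor x p k = 0)
  (hQe : MvPolynomial.eval e (taylor x p m) ≠ 0)
include hp hd hx hlow hQe

/-- Strict tangent directions enter the cone. -/
lemma tangent_mem {z : Fin n → ℝ} (hz : z ∈ hyperbolicityCone (taylor x p m) e) {η : ℝ}
    (hη : 0 < η) : ∀ᶠ a in 𝓝[>] (0 : ℝ), x + a • (z + η • e) ∈ hyperbolicityCone p e := by
  have hQ := leading_hyperbolic hp hd hx hlow hQe
  obtain ⟨T, -, hT⟩ := exists_shift_mem hp hd z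
  set T' := max T η
  have hcomp : ∀ τ ∈ Set.Icc η T', ∀ᶠ w : ℝ × ℝ in 𝓝 ((0 : ℝ), τ),
      0 < expand d p x m w.1 (z + w.2 • e) := by
    intro τ hτ
    have hc : Continuous fun w : ℝ × ℝ => expand d p x m w.1 (z + w.2 • e) :=
      continuous_expand.comp (continuous_fst.prodMk
        (continuous_const.add (continuous_snd.smul continuous_const)))
    refine hc.continuousAt.eventually_const_lt ?_
    simp only [expand_zero]
    exact eval_pos_of_strict hQ (taylor_hom x p m) hz (hη.trans_le hτ.1)
  filter_upwards [nhdsWithin_le_nhds (isCompact_Icc.eventually_forall_of_forall_eventually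
    (P := fun a τ => 0 < expand d p x m a (z + τ • e)) hcomp), self_mem_nhdsWithin] with a ha ha0
  have ha0 : (0 : ℝ) < a := ha0
  refine mem_of_segment hp hd (T := a * (T' - η)) ?_ fun s hs hsT => ?_
  · have h1 : x + a • (z + η • e) + (a * (T' - η)) • e = x + a • (z + T' • e) := by
      ext l; simp; ring
    rw [h1]
    exact cone_add' hp hd hx (cone_smul hd ha0 (hT T' (le_max_left _ _)))
  · have h1 : x + a • (z + η • e) + s • e = x + a • (z + (η + s / a) • e) := by
      ext l; simp; field_simp; ring
    rw [h1, expand_eq hd hlow]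
    refine (mul_pos (pow_pos ha0 m) (ha _ ⟨?_, ?_⟩)).ne'
    · linarith [div_pos hs ha0]
    · have := (div_le_iff₀ ha0).mpr (hsT.trans_eq (mul_comm _ _))
      linarith

/-- Segments into the cone give tangent directions. -/
lemma mem_tangent {v : Fin n → ℝ} {a : ℝ} (ha : 0 < a)
    (hv : x + a • v ∈ hyperbolicityCone p e) : v ∈ hyperbolicityCone (taylor x p m) e := by
  have hseg : ∀ b, 0 < b → b < a → x + b • v ∈ hyperbolicityCone p e := by
    intro b hb hba
    have hr : 0 < 1 - b / a := sub_pos.mpr ((div_lt_one ha).mpr hba)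
    have h1 : x + b • v = (1 - b / a) • x + (b / a) • (x + a • v) := by
      ext l; simp; field_simp; ring
    rw [h1]
    exact cone_add' hp hd (cone_smul hd hr hx) (cone_smul hd (div_pos hb ha) hv)
  refine mem_of_shift_ne (taylor_hom x p m) fun τ hτ => ?_
  have hle : ∀ᶠ b in 𝓝[>] (0 : ℝ),
      (line p (x + b • v) e).coeff m * τ ^ m ≤ expand d p x m b (v + τ • e) := by
    filter_upwards [Ioo_mem_nhdsGT ha] with b hb
    have hmem := hseg b hb.1 hb.2
    have h1 : MvPolynomial.eval (x + b • (v + τ • e)) p =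
        (line p (x + b • v) e).eval (b * τ) := by
      rw [line_eval]; refine congrArg (fun w => MvPolynomial.eval w p) ?_; ext l; simp; ring
    rw [expand_eq hd hlow, eval_eq_sum_range' (n := m + (d + 1))
      (by have := line_natDegree_le p (x + b • v) e hd.totalDegree_le; omega)] at h1
    have h2 : (line p (x + b • v) e).coeff m * (b * τ) ^ m ≤
        b ^ m * expand d p x m b (v + τ • e) := by
      rw [h1]
      exact Finset.single_le_sum (f := fun j => (line p (x + b • v) e).coeff j * (b * τ) ^ j)
        (fun j _ => mul_nonneg (line_coeff_nonneg hp hd hmem j)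
          (pow_nonneg (mul_nonneg hb.1.le hτ.le) j)) (Finset.mem_range.mpr (by omega))
    rw [mul_pow] at h2
    nlinarith [pow_pos hb.1 m]
  have hc1 : Continuous fun b : ℝ => (line p (x + b • v) e).coeff m * τ ^ m :=
    ((continuous_line_coeff p m).comp ((continuous_const.add
      (continuous_id.smul continuous_const)).prodMk continuous_const)).mul continuous_const
  have hc2 : Continuous fun b : ℝ => expand d p x m b (v + τ • e) :=
    continuous_expand.comp (continuous_id.prodMk continuous_const)
  have h := le_of_tendsto_of_tendsto (hc1.continuousWithinAt (s := Set.Ioi 0) (x := 0))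
    (hc2.continuousWithinAt (s := Set.Ioi 0) (x := 0)) hle
  simp only [zero_smul, add_zero, line_coeff_taylor, expand_zero] at h
  exact (lt_of_lt_of_le (mul_pos (taylor_pos hp hd hx hQe) (pow_pos hτ m)) h).ne'

/-- Near a tangent boundary direction with positive derivative towards `e`, nonnegativity of the
expansion means membership. -/
lemma mem_near {v : Fin n → ℝ} (hv : v ∈ hyperbolicityCone (taylor x p m) e)
    (hve : 0 < (line (taylor x p m) v e).coeff 1) :
    ∀ᶠ z : ℝ × (Fin n → ℝ) in 𝓝 ((0 : ℝ), v),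
      0 < z.1 → 0 ≤ expand d p x m z.1 z.2 → x + z.1 • z.2 ∈ hyperbolicityCone p e := by
  let H : (ℝ × (Fin n → ℝ)) × ℝ → ℝ := fun z =>
    ∑ i ∈ Finset.range (d + 1), z.1.1 ^ i * ∑ j ∈ Finset.range (m + d + 1),
      (line (taylor x p (m + i)) z.1.2 e).coeff (j + 1) * z.2 ^ j
  have hH : ∀ a w τ, expand d p x m a (w + τ • e) = expand d p x m a w + τ * H ((a, w), τ) := by
    intro a w τ
    simp only [expand, H, Finset.mul_sum, ← Finset.sum_add_distrib]
    refine Finset.sum_congr rfl fun i hi => ?_
    have hi' := Finset.mem_range.mp hi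
    rw [← line_eval, eval_eq_sum_range' (n := m + d + 2) (by
      have := line_natDegree_le (taylor x p (m + i)) w e (taylor_hom x p (m + i)).totalDegree_le
      omega), Finset.sum_range_succ', line_coeff_zero, mul_add, Finset.mul_sum, add_comm]
    congr 1
    · simp
    · exact Finset.sum_congr rfl fun j _ => by ring
  have hHc : Continuous H := continuous_finsetSum _ fun i _ =>
    ((continuous_fst.comp continuous_fst).pow i).mul (continuous_finsetSum _ fun j _ =>
      ((continuous_line_coeff _ (j + 1)).comp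
        ((continuous_snd.comp continuous_fst).prodMk continuous_const)).mul (continuous_snd.pow j))
  have hH0 : H ((0, v), 0) = (line (taylor x p m) v e).coeff 1 := by
    simp only [H]
    rw [Finset.sum_eq_single 0, Finset.sum_eq_single 0]
    · simp
    · intro j _ hj; simp [zero_pow hj]
    · simp
    · intro i _ hi; simp [zero_pow hi]
    · simp
  obtain ⟨ε, hε, hball⟩ := Metric.eventually_nhds_iff.mp
    (hHc.continuousAt.eventually_const_lt (show 0 < H ((0, v), 0) by rw [hH0]; exact hve))
  set η := ε / 2 with hηdef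
  have hη : 0 < η := half_pos hε
  have he' : ∀ᶠ w in 𝓝 v, w - v + (η / 2) • e ∈ hyperbolicityCone p e := by
    have hc : Tendsto (fun w => w - v + (η / 2) • e) (𝓝 v) (𝓝 ((η / 2) • e)) := by
      simpa using (show Continuous fun w => w - v + (η / 2) • e by fun_prop).tendsto v
    exact hc.eventually (cone_eventually hp hd (cone_smul hd (half_pos hη) (cone_base hp hd))
      (by rw [eval_smul_hom hd]; exact mul_ne_zero (pow_ne_zero _ (half_pos hη).ne') hp.2.1.ne'))
  obtain ⟨δ, hδ, hδT⟩ := Metric.mem_nhdsWithin_iff.mp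
    (tangent_mem hp hd hx hlow hQe hv (half_pos hη))
  filter_upwards [continuous_snd.continuousAt.eventually he',
    Metric.ball_mem_nhds ((0 : ℝ), v) (lt_min hδ hε)] with z hz hball' ha hF
  obtain ⟨a, w⟩ := z
  rw [Metric.mem_ball, Prod.dist_eq, max_lt_iff, lt_min_iff, lt_min_iff] at hball'
  refine mem_of_segment hp hd (T := a * η) ?_ fun s hs hsT => ?_
  · have h1 : x + a • w + (a * η) • e = (x + a • (v + (η / 2) • e)) + a • (w - v + (η / 2) • e) := by
      ext l; simp; ring
    rw [h1]
    exact cone_add' hp hd (hδT ⟨hball'.1.1, ha⟩) (cone_smul hd ha hz)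
  · have h1 : x + a • w + s • e = x + a • (w + (s / a) • e) := by
      ext l; simp; field_simp; ring
    rw [h1, expand_eq hd hlow, hH]
    refine (mul_pos (pow_pos ha m) (add_pos_of_nonneg_of_pos hF
      (mul_pos (div_pos hs ha) (hball ?_)))).ne'
    rw [Prod.dist_eq, Prod.dist_eq, max_lt_iff, max_lt_iff]
    refine ⟨⟨hball'.1.2, hball'.2.2⟩, ?_⟩
    rw [Real.dist_eq, sub_zero, abs_of_pos (div_pos hs ha)]
    have h2 : s / a ≤ η := (div_le_iff₀ ha).mpr (hsT.trans_eq (mul_comm _ _))
    linarith

/-- The next part is nonpositive on tangent boundary directions. -/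
lemma next_nonpos {v : Fin n → ℝ} (hv : v ∈ hyperbolicityCone (taylor x p m) e)
    (hv0 : MvPolynomial.eval v (taylor x p m) = 0)
    (hve : 0 < (line (taylor x p m) v e).coeff 1) :
    MvPolynomial.eval v (taylor x p (m + 1)) ≤ 0 := by
  by_contra hpos
  push Not at hpos
  have hdm : m + 1 ≤ d := by
    by_contra h
    rw [taylor_eq_zero hd x (by omega)] at hpos
    exact lt_irrefl 0 hpos
  let g : ℝ → ℝ := fun a =>
    ∑ i ∈ Finset.range d, a ^ i * MvPolynomial.eval v (taylor x p (m + 1 + i))
  have hg : ∀ a, expand d p x m a v = a * g a := by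
    intro a
    rw [expand, Finset.sum_range_succ', add_zero, hv0, mul_zero, add_zero, Finset.mul_sum]
    refine Finset.sum_congr rfl fun i _ => ?_
    rw [pow_succ, show m + (i + 1) = m + 1 + i by ring]
    ring
  have hgc : Continuous g := continuous_finsetSum _ fun i _ => (continuous_pow i).mul continuous_const
  have hg0 : 0 < g 0 := by
    simp only [g]
    rw [Finset.sum_eq_single 0]
    · simpa using hpos
    · intro i _ hi; simp [zero_pow hi]
    · intro h; simp at h; omega
  obtain ⟨ε, hε, hnear⟩ := Metric.eventually_nhds_iff.mp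
    (mem_near hp hd hx hlow hQe hv hve)
  obtain ⟨a, ⟨hag, haε⟩, ha⟩ := (((hgc.continuousAt.eventually_const_lt hg0).and
    (Metric.ball_mem_nhds (0 : ℝ) hε)).filter_mono
      (nhdsWithin_le_nhds (s := Set.Ioi (0 : ℝ))) |>.and self_mem_nhdsWithin).exists
  have ha : (0 : ℝ) < a := ha
  have hFpos : 0 < expand d p x m a v := by rw [hg]; exact mul_pos ha hag
  have hc : Continuous fun τ : ℝ => expand d p x m a (v - τ • e) :=
    continuous_expand.comp (continuous_const.prodMk
      (continuous_const.sub (continuous_id.smul continuous_const)))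
  have hc' : Continuous fun τ : ℝ => ((a, v - τ • e) : ℝ × (Fin n → ℝ)) :=
    continuous_const.prodMk (continuous_const.sub (continuous_id.smul continuous_const))
  have hev : ∀ᶠ τ in 𝓝[>] (0 : ℝ),
      0 < expand d p x m a (v - τ • e) ∧ dist (a, v - τ • e) ((0 : ℝ), v) < ε := by
    refine nhdsWithin_le_nhds ((hc.continuousAt.eventually_const_lt (by simpa using hFpos)).and
      (hc'.dist continuous_const |>.continuousAt.eventually_lt_const ?_))
    simpa [Prod.dist_eq] using haε
  obtain ⟨τ, ⟨hτF, hτd⟩, hτ⟩ := (hev.and self_mem_nhdsWithin).exists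
  have hτ : (0 : ℝ) < τ := hτ
  have hmem := hnear hτd ha hτF.le
  refine eval_ne_zero_of_strict (taylor_hom x p m)
    (mem_tangent hp hd hx hlow hQe ha hmem) hτ ?_
  rw [sub_add_cancel, hv0]

end Vale.Agent.P256.Iso
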